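/-
Row 324 (S0582), PDE core, module AP (architect helper263), SYMBOL CALCULUS, file Conv: from the classes `TS` to the statements of Core/Bgd.lean (`SymC`, bounds of tt^j ∂_t^i f).
NOTE: inside a theorem named `TY.foo` or `TS.foo` the identifiers dT, dY, ttF resolve to `TY.dT`, `TS.dT`, …: write `Core.dT`, `Core.dY`, `Core.ttF`.

* `SymC.mono_C`:  C ϱ/R^j ≤ C' ϱ/R^j since ϱ ≥ 0, R > 0.
* `TY.symC`:  for j ≤ n `h i hi j hj` gives C_j ≥ 0 with |dY^[j] (dT^[i] f) p| ≤ C_j ϱ p/(Θ^i R^j);    `iteratedDeriv_sl` (PR/Sm.lean):  iteratedDeriv j (sl F t) y = dY^[j] F (t,y);    ϱ/(Θ^i R^j) = (ϱ/Θ^i)/R^j (`div_div`);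
      C := ∑_{j ≤ n} C_j (choose the C_j with `choose`; `Finset.single_le_sum`), uses ϱ/(Θ^i R^j) ≥ 0.
* `TS.ttF`:  ttF f = -X * dY f  (PR/Sm.lean);   X ∈ TS (wt 0 0 1) (`TS.X_rh`), wt 0 0 1 = R (zpow_one, simp [wt]);   dY f ∈ TS m n (ϱ/R) (`TS.dY`);   product weight R * (ϱ/R) = ϱ on D.
* `TS.ttF_iter`: induction on j  (`Function.iterate_succ_apply'`; n + (j+1) = (n+j)+1… arrange the induction generalising n).
* `TS.dT_iter`: induction on i (`Function.iterate_succ_apply`: dT^[i+1] f = dT^[i] (dT f)); weight (ϱ/Θ)/Θ^i = ϱ/Θ^(i+1).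
* `TS.tt_bound`:  `tt_iter_sl`:  tt^[j] (sl F t) = sl (ttF^[j] F) t;   F = dT^[i] f ∈ TS 0 j (ϱ/Θ^i);   `TS.ttF_iter`, `TY.bd0`.
-/
import Claimed.Agent.R324.Core.AP.Cal.Wt

set_option autoImplicit false

namespace Claimed.Agent.R324.Core

open Set Filter Topology
open scoped ContDiff

noncomputable section

variable {q : ℝ} {D : Set (ℝ × ℝ)} {m n : ℕ} {ϱ f g : Fn}

theorem SymC.mono_C (hq : 100 ≤ q) {Λ₀ C C' : ℝ} (hΛ : Λ₀ ≤ 1) {N : ℕ} {σ : ℝ → ℝ → ℝ}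
    (h0 : ∀ t ∈ Ico (-Λ₀) 0, ∀ y ∈ Icc (-1 : ℝ) 1, 0 ≤ σ t y) (hC : C ≤ C')
    (h : SymC q Λ₀ C N σ f) : SymC q Λ₀ C' N σ f := by
  intro t ht y hy j hj
  refine (h t ht y hy j hj).trans ?_
  have hD := domOK_Dm hΛ (subset_refl (Icc (-1 : ℝ) 1))
  have hR : 0 < rh2 q t y := rh2_pos_dom (by linarith) hD (p := (t, y)) ⟨ht, hy⟩
  exact div_le_div_of_nonneg_right (mul_le_mul_of_nonneg_right hC (h0 t ht y hy)) (pow_pos hR j).le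

theorem SymC.mono_N {Λ₀ C : ℝ} {N N' : ℕ} {σ : ℝ → ℝ → ℝ} (hN : N' ≤ N)
    (h : SymC q Λ₀ C N σ f) : SymC q Λ₀ C N' σ f :=
  fun t ht y hy j hj => h t ht y hy j (hj.trans hN)

theorem TY.symC (hq : 100 ≤ q) {Λ₀ : ℝ} (hΛ : Λ₀ ≤ 1)
    (h0 : ∀ p ∈ Dm Λ₀ (Icc (-1 : ℝ) 1), 0 ≤ ϱ p)
    (h : TY q (Dm Λ₀ (Icc (-1 : ℝ) 1)) m n ϱ f) {i : ℕ} (hi : i ≤ m) :
    ∃ C : ℝ, 0 ≤ C ∧ SymC q Λ₀ C n (fun t y => ϱ (t, y) / (Th t y) ^ i) (Core.dT^[i] f) := by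
  have hD := domOK_Dm hΛ (subset_refl (Icc (-1 : ℝ) 1))
  have hex : ∀ j : ℕ, ∃ C : ℝ, 0 ≤ C ∧ (j ≤ n → ∀ p ∈ Dm Λ₀ (Icc (-1 : ℝ) 1),
      |Core.dY^[j] (Core.dT^[i] f) p| ≤ C * (ϱ p / ((Th p.1 p.2) ^ i * (rh2 q p.1 p.2) ^ j))) := by
    intro j
    by_cases hj : j ≤ n
    · obtain ⟨C, hC, hb⟩ := h i hi j hj
      exact ⟨C, hC, fun _ => hb⟩
    · exact ⟨0, le_rfl, fun h' => absurd h' hj⟩
  choose Cj hCj hb using hex
  refine ⟨∑ j ∈ Finset.range (n + 1), Cj j, Finset.sum_nonneg fun j _ => hCj j, ?_⟩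
  intro t ht y hy j hj
  have hp : ((t, y) : ℝ × ℝ) ∈ Dm Λ₀ (Icc (-1 : ℝ) 1) := ⟨ht, hy⟩
  rw [iteratedDeriv_sl]
  have h1 := hb j hj (t, y) hp
  have hw : 0 ≤ ϱ (t, y) / ((Th t y) ^ i * (rh2 q t y) ^ j) :=
    div_nonneg (h0 _ hp) (ap_wt_pos (by linarith) hD hp i j).le
  have h2 : Cj j ≤ ∑ j ∈ Finset.range (n + 1), Cj j :=
    Finset.single_le_sum (f := Cj) (fun k _ => hCj k) (Finset.mem_range.2 (by omega))
  calc |Core.dY^[j] (Core.dT^[i] f) (t, y)|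
      ≤ Cj j * (ϱ (t, y) / ((Th t y) ^ i * (rh2 q t y) ^ j)) := h1
    _ ≤ (∑ j ∈ Finset.range (n + 1), Cj j) * (ϱ (t, y) / ((Th t y) ^ i * (rh2 q t y) ^ j)) :=
        mul_le_mul_of_nonneg_right h2 hw
    _ = (∑ j ∈ Finset.range (n + 1), Cj j) * (ϱ (t, y) / (Th t y) ^ i) / (rh2 q t y) ^ j := by
        rw [← div_div, mul_div_assoc]

theorem TS.ttF (hq : 100 ≤ q) (hD : DomOK D) (h : TS q D m (n + 1) ϱ f) : TS q D m n ϱ (Core.ttF f) := by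
  have h1 : TS q D m n (fun p => wt q 0 0 1 p * (ϱ p / rh2 q p.1 p.2))
      (fun p => -(Xf p.2) * Core.dY f p) := TS.mul hD ((TS.X_rh hq hD).neg hD) (h.dY hD)
  refine TS.congr_wt (fun p hp => ?_) h1
  have hR : rh2 q p.1 p.2 ≠ 0 := (rh2_pos_dom (by linarith) hD hp).ne'
  have e : wt q 0 0 1 p = rh2 q p.1 p.2 := by
    simp [wt]
  rw [e, mul_div_cancel₀ _ hR]

theorem TS.ttF_iter (hq : 100 ≤ q) (hD : DomOK D) (j : ℕ) (h : TS q D m (n + j) ϱ f) :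
    TS q D m n ϱ (Core.ttF^[j] f) := by
  induction j generalizing f with
  | zero => exact h
  | succ j ih =>
    rw [Function.iterate_succ_apply]
    exact ih (TS.ttF hq hD (n := n + j) h)

theorem TS.dT_iter (i : ℕ) (h : TS q D (m + i) n ϱ f) :
    TS q D m n (fun p => ϱ p / (Th p.1 p.2) ^ i) (Core.dT^[i] f) := by
  induction i generalizing f ϱ with
  | zero =>
    have e : (fun p : ℝ × ℝ => ϱ p / (Th p.1 p.2) ^ 0) = ϱ := by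
      funext p
      simp
    rw [e]
    exact h
  | succ i ih =>
    rw [Function.iterate_succ_apply]
    have h1 := ih (TS.dT (m := m + i) h)
    have e : (fun p : ℝ × ℝ => ϱ p / (Th p.1 p.2) ^ (i + 1))
        = fun p => ϱ p / Th p.1 p.2 / (Th p.1 p.2) ^ i := by
      funext p
      rw [div_div, pow_succ']
    rw [e]
    exact h1

theorem TS.tt_bound (hq : 100 ≤ q) (hD : DomOK D) (h : TS q D m n ϱ f) {i j : ℕ} (hi : i ≤ m)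
    (hj : j ≤ n) :
    ∃ C : ℝ, 0 ≤ C ∧ ∀ p ∈ D, |(tt^[j] (sl (Core.dT^[i] f) p.1)) p.2| ≤ C * ϱ p / (Th p.1 p.2) ^ i := by
  have h1 : TS q D (0 + i) (0 + j) ϱ f := h.of_le (by omega) (by omega)
  have h2 := TS.ttF_iter hq hD j (TS.dT_iter i h1)
  obtain ⟨C, hC, hb⟩ := h2.bd.bd0
  refine ⟨C, hC, fun p hp => ?_⟩
  rw [tt_iter_sl, mul_div_assoc]
  exact hb p hp

end

end Claimed.Agent.R324.Core
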