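/-
Row 324 (S0582), PDE core, module AP (architect helper263), SYMBOL CALCULUS, file AlgA (add, const_mul, neg, sub): the classes `TY`, `TS` (Cal/Cls.lean) are closed under +, ·, c·, ∂_y, ∂_t.
Rules for dY, dT on `Sm` functions: Core/PR/Sm.lean (`dY_add, dY_mul, dY_const_mul, dT_add, dT_mul, …, Sm.dT_dY`, closure `Sm.add, Sm.mul, Sm.dY, Sm.dT, …`).    Recursion: `TY_succ_iff`, `TY_zero_succ_iff`, `TY_zero_zero_iff`.   Congruence: `TY.congr` (functions equal on t < 0), `TY.congr_wt`.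

PATTERN of every proof: (1) the case m = 0 by induction on n, generalising the weights and the functions;  (2) induction on m, generalising the weights and the functions.
* `TY.add`:  (1) n = 0: `Bd.add`.   n+1: `TY_zero_succ_iff`:  Bd.add;   dY (f+g) = dY f + dY g on t < 0 (`dY_add`) — `TY.congr` — then the induction hypothesis for dY f, dY g (`Sm.dY`).
             (2) m+1: `TY_succ_iff`:  first part by (1);   dT (f+g) = dT f + dT g (`dT_add`), induction hypothesis.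
* `TY.const_mul`: the same with `dY_const_mul`, `dT_const_mul`.     `TY.neg`: c = -1 (+ `TY.congr`).     `TY.sub`: add + neg.
* `TY.mul`:  (1) n+1:  Bd.mul;   dY (f g) = dY f * g + f * dY g (`dY_mul`);   dY f ∈ TY 0 n (ϱ₁/R), g ∈ TY 0 n ϱ₂ (`TY.of_le`)  ⟹ (IH)  dY f * g ∈ TY 0 n ((ϱ₁/R) ϱ₂), and (ϱ₁/R) ϱ₂ = (ϱ₁ ϱ₂)/R pointwise (`TY.congr_wt`, `div_mul_eq_mul_div`);  same for f * dY g;  `TY.add`.
             (2) m+1:  the same with dT, Θ.
* `TY.dT`: second part of `TY_succ_iff`.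
* `TY.dY`:  induction on m (generalising ϱ, f).   m = 0: second part of `TY_zero_succ_iff`.    m+1: `TY_succ_iff`: first part from the case m = 0;   second part:  dT (dY f) = dY (dT f) on t < 0 (`Sm.dT_dY`), `TY.congr`, IH for dT f ∈ TY m (n+1) (ϱ/Θ) gives TY m n ((ϱ/Θ)/R), and (ϱ/Θ)/R = (ϱ/R)/Θ (`div_right_comm`).
* `TY.sum`: `Finset.induction_on`;  empty sum: `TY.of_ev_zero` or Bd.of_zero;  insert: `TY.add` (+ `sm_sum`), `Finset.sum_insert`.
* `TY.pow`: induction on k;  k = 0: the constant 1 (`TY.const` below);  `pow_succ`, `TY.mul`.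
* `TY.const`:  dT^[i], dY^[j] of a constant are 0 for i+j ≥ 1 (`dY_const`, `dT_const`; prove `dT (fun _ => c) = fun _ => 0` by funext), so only (i,j) = (0,0) matters: |c| ≤ |c| * 1.   Use the recursion lemmas + `TY.of_ev_zero`.
* the `TS.*` versions: combine with the closure of `Sm`.
-/
import Claimed.Agent.R324.Core.AP.Cal.Cls

set_option autoImplicit false

namespace Claimed.Agent.R324.Core

open Set Filter Topology
open scoped ContDiff

noncomputable section

variable {q : ℝ} {D : Set (ℝ × ℝ)} {m n : ℕ} {ϱ ϱ₁ ϱ₂ f g : Fn}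

theorem ap_TY_add_zero (hD : DomOK D) (n : ℕ) : ∀ (ϱ f g : Fn), Sm f → Sm g → TY q D 0 n ϱ f →
    TY q D 0 n ϱ g → TY q D 0 n ϱ (fun p => f p + g p) := by
  induction n with
  | zero =>
    intro ϱ f g _ _ h1 h2
    exact TY_zero_zero_iff.2 ((TY_zero_zero_iff.1 h1).add (TY_zero_zero_iff.1 h2))
  | succ n ih =>
    intro ϱ f g hf hg h1 h2
    obtain ⟨a1, b1⟩ := TY_zero_succ_iff.1 h1
    obtain ⟨a2, b2⟩ := TY_zero_succ_iff.1 h2
    refine TY_zero_succ_iff.2 ⟨a1.add a2, ?_⟩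
    exact TY.congr hD (fun t ht y => dY_add hf hg ht y) (ih _ _ _ hf.dY hg.dY b1 b2)

theorem ap_TY_const_mul_zero (hD : DomOK D) (c : ℝ) (n : ℕ) : ∀ (ϱ f : Fn), Sm f → TY q D 0 n ϱ f →
    TY q D 0 n ϱ (fun p => c * f p) := by
  induction n with
  | zero =>
    intro ϱ f _ h1
    exact TY_zero_zero_iff.2 ((TY_zero_zero_iff.1 h1).const_mul c)
  | succ n ih =>
    intro ϱ f hf h1
    obtain ⟨a1, b1⟩ := TY_zero_succ_iff.1 h1
    refine TY_zero_succ_iff.2 ⟨a1.const_mul c, ?_⟩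
    exact TY.congr hD (fun t ht y => dY_const_mul c hf ht y) (ih _ _ hf.dY b1)

theorem TY.add (hD : DomOK D) (hf : Sm f) (hg : Sm g) (h1 : TY q D m n ϱ f) (h2 : TY q D m n ϱ g) :
    TY q D m n ϱ (fun p => f p + g p) := by
  induction m generalizing ϱ f g with
  | zero => exact ap_TY_add_zero hD n ϱ f g hf hg h1 h2
  | succ m ih =>
    obtain ⟨a1, b1⟩ := TY_succ_iff.1 h1
    obtain ⟨a2, b2⟩ := TY_succ_iff.1 h2
    refine TY_succ_iff.2 ⟨ap_TY_add_zero hD n ϱ f g hf hg a1 a2, ?_⟩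
    exact TY.congr hD (fun t ht y => dT_add hf hg ht y) (ih hf.dT hg.dT b1 b2)

theorem TY.const_mul (hD : DomOK D) (c : ℝ) (hf : Sm f) (h : TY q D m n ϱ f) :
    TY q D m n ϱ (fun p => c * f p) := by
  induction m generalizing ϱ f with
  | zero => exact ap_TY_const_mul_zero hD c n ϱ f hf h
  | succ m ih =>
    obtain ⟨a1, b1⟩ := TY_succ_iff.1 h
    refine TY_succ_iff.2 ⟨ap_TY_const_mul_zero hD c n ϱ f hf a1, ?_⟩
    exact TY.congr hD (fun t ht y => dT_const_mul c hf ht y) (ih hf.dT b1)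

theorem TY.neg (hD : DomOK D) (hf : Sm f) (h : TY q D m n ϱ f) : TY q D m n ϱ (fun p => -f p) := by
  refine TY.congr hD (fun t _ y => ?_) (TY.const_mul hD (-1) hf h)
  show -f (t, y) = -1 * f (t, y)
  ring

theorem TY.sub (hD : DomOK D) (hf : Sm f) (hg : Sm g) (h1 : TY q D m n ϱ f) (h2 : TY q D m n ϱ g) :
    TY q D m n ϱ (fun p => f p - g p) := by
  refine TY.congr hD (fun t _ y => ?_) (TY.add hD hf hg.neg h1 (TY.neg hD hg h2))
  show f (t, y) - g (t, y) = f (t, y) + -g (t, y)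
  ring

end

end Claimed.Agent.R324.Core
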