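/-
Row 324 (S0582), PDE core, module AP (architect helper263), SYMBOL CALCULUS, file AlgB (mul, dT, dY, const): the classes `TY`, `TS` (Cal/Cls.lean) are closed under +, ·, c·, ∂_y, ∂_t.
Rules for dY, dT on `Sm` functions: Core/PR/Sm.lean (`dY_add, dY_mul, dY_const_mul, dT_add, dT_mul, …, Sm.dT_dY`, closure `Sm.add, Sm.mul, Sm.dY, Sm.dT, …`).    Recursion: `TY_succ_iff`, `TY_zero_succ_iff`, `TY_zero_zero_iff`.   Congruence: `TY.congr` (functions equal on t < 0), `TY.congr_wt`.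

PATTERN of every proof: (1) the case m = 0 by induction on n, generalising the weights and the functions;  (2) induction on m, generalising the weights and the functions.
* `TY.add`:  (1) n = 0: `Bd.add`.   n+1: `TY_zero_succ_iff`:  Bd.add;   dY (f+g) = dY f + dY g on t < 0 (`dY_add`) — `TY.congr` — then the induction hypothesis for dY f, dY g (`Sm.dY`).
             (2) m+1: `TY_succ_iff`:  first part by (1);   dT (f+g) = dT f + dT g (`dT_add`), induction hypothesis.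
* `TY.const_mul`: the same with `dY_const_mul`, `dT_const_mul`.     `TY.neg`: c = -1 (+ `TY.congr`).     `TY.sub`: add + neg.
* `TY.mul`:  (1) n+1:  Bd.mul;   dY (f g) = dY f * g + f * dY g (`dY_mul`);   dY f ∈ TY 0 n (ϱ₁/R), g ∈ TY 0 n ϱ₂ (`TY.of_le`)  ⟹ (IH)  dY f * g ∈ TY 0 n ((ϱ₁/R) ϱ₂), and (ϱ₁/R) ϱ₂ = (ϱ₁ ϱ₂)/R pointwise (`TY.congr_wt`, `div_mul_eq_mul_div`);  same for f * dY g;  `TY.add`.
             (2) m+1:  the same with dT, Θ.
* `TY.dT`: second part of `TY_succ_iff`.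
* `TY.dY`:  induction on m (generalising ϱ, f).   m = 0: second part of `TY_zero_succ_iff`.    m+1: `TY_succ_iff`: first part from the case m = 0;   second part:  dT (dY f) = dY (dT f) on t < 0 (`Sm.dT_dY`), `TY.congr`, IH for dT f ∈ TY m (n+1) (ϱ/Θ) gives TY m n ((ϱ/Θ)/R), and (ϱ/Θ)/R = (ϱ/R)/Θ (`div_right_comm`).
* `TY.sum`: `Finset.induction_on`;  empty sum: `TY.of_ev_zero` or Bd.of_zero;  insert: `TY.add` (+ `sm_sum`), `Finset.sum_insert`.
* `TY.pow`: induction on k;  k = 0: the constant 1 (`TY.const` below);  `pow_succ`, `TY.mul`.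
* `TY.const`:  dT^[i], dY^[j] of a constant are 0 for i+j ≥ 1 (`dY_const`, `dT_const`; prove `dT (fun _ => c) = fun _ => 0` by funext), so only (i,j) = (0,0) matters: |c| ≤ |c| * 1.   Use the recursion lemmas + `TY.of_ev_zero`.
* the `TS.*` versions: combine with the closure of `Sm`.
-/
import Claimed.Agent.R324.Core.AP.Cal.AlgA

set_option autoImplicit false

namespace Claimed.Agent.R324.Core

open Set Filter Topology
open scoped ContDiff

noncomputable section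

variable {q : ℝ} {D : Set (ℝ × ℝ)} {m n : ℕ} {ϱ ϱ₁ ϱ₂ f g : Fn}

theorem ap_TY_mul_zero (hD : DomOK D) : ∀ (n : ℕ) (ϱ₁ ϱ₂ f g : Fn), Sm f → Sm g →
    TY q D 0 n ϱ₁ f → TY q D 0 n ϱ₂ g →
    TY q D 0 n (fun p => ϱ₁ p * ϱ₂ p) (fun p => f p * g p) := by
  intro n
  induction n with
  | zero =>
    intro ϱ₁ ϱ₂ f g hf hg h1 h2
    exact TY_zero_zero_iff.2 ((TY_zero_zero_iff.1 h1).mul (TY_zero_zero_iff.1 h2))
  | succ n ih =>
    intro ϱ₁ ϱ₂ f g hf hg h1 h2
    obtain ⟨b1, d1⟩ := TY_zero_succ_iff.1 h1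
    obtain ⟨b2, d2⟩ := TY_zero_succ_iff.1 h2
    refine TY_zero_succ_iff.2 ⟨b1.mul b2, ?_⟩
    have e1 : TY q D 0 n (fun p => ϱ₁ p * ϱ₂ p / rh2 q p.1 p.2) (fun p => dY f p * g p) :=
      (ih _ _ _ _ hf.dY hg d1 (h2.of_le le_rfl (Nat.le_succ n))).congr_wt
        (fun p _ => by ring)
    have e2 : TY q D 0 n (fun p => ϱ₁ p * ϱ₂ p / rh2 q p.1 p.2) (fun p => f p * dY g p) :=
      (ih _ _ _ _ hf hg.dY (h1.of_le le_rfl (Nat.le_succ n)) d2).congr_wt
        (fun p _ => by ring)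
    exact TY.congr (g := fun p => dY f p * g p + f p * dY g p) hD
      (fun t ht y => dY_mul hf hg ht y) (TY.add hD (hf.dY.mul hg) (hf.mul hg.dY) e1 e2)

theorem TY.mul (hD : DomOK D) (hf : Sm f) (hg : Sm g) (h1 : TY q D m n ϱ₁ f) (h2 : TY q D m n ϱ₂ g) :
    TY q D m n (fun p => ϱ₁ p * ϱ₂ p) (fun p => f p * g p) := by
  induction m generalizing ϱ₁ ϱ₂ f g with
  | zero => exact ap_TY_mul_zero hD n _ _ _ _ hf hg h1 h2
  | succ m ih =>
    obtain ⟨a1, d1⟩ := TY_succ_iff.1 h1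
    obtain ⟨a2, d2⟩ := TY_succ_iff.1 h2
    refine TY_succ_iff.2 ⟨ap_TY_mul_zero hD n _ _ _ _ hf hg a1 a2, ?_⟩
    have e1 : TY q D m n (fun p => ϱ₁ p * ϱ₂ p / Th p.1 p.2) (fun p => Core.dT f p * g p) :=
      (ih hf.dT hg d1 (h2.of_le (Nat.le_succ m) le_rfl)).congr_wt (fun p _ => by ring)
    have e2 : TY q D m n (fun p => ϱ₁ p * ϱ₂ p / Th p.1 p.2) (fun p => f p * Core.dT g p) :=
      (ih hf hg.dT (h1.of_le (Nat.le_succ m) le_rfl) d2).congr_wt (fun p _ => by ring)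
    exact TY.congr (g := fun p => Core.dT f p * g p + f p * Core.dT g p) hD
      (fun t ht y => dT_mul hf hg ht y) (TY.add hD (hf.dT.mul hg) (hf.mul hg.dT) e1 e2)

theorem TY.dT (h : TY q D (m + 1) n ϱ f) : TY q D m n (fun p => ϱ p / Th p.1 p.2) (dT f) :=
  (TY_succ_iff.1 h).2

theorem TY.dY (hD : DomOK D) (hf : Sm f) (h : TY q D m (n + 1) ϱ f) :
    TY q D m n (fun p => ϱ p / rh2 q p.1 p.2) (dY f) := by
  induction m generalizing ϱ f with
  | zero => exact (TY_zero_succ_iff.1 h).2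
  | succ m ih =>
    obtain ⟨a, d⟩ := TY_succ_iff.1 h
    refine TY_succ_iff.2 ⟨(TY_zero_succ_iff.1 a).2, ?_⟩
    have e := (ih hf.dT d).congr_wt (ϱ' := fun p => ϱ p / rh2 q p.1 p.2 / Th p.1 p.2)
      (fun p _ => by ring)
    exact TY.congr hD (fun t ht y => hf.dT_dY ht y) e

theorem TY.const (c : ℝ) : TY q D m n (fun _ => 1) (fun _ => c) := by
  have hb : Bd D (fun _ => 1) (fun _ => c) := ⟨|c|, abs_nonneg c, fun p _ => by simp⟩
  have hY : Core.dY (fun _ : ℝ × ℝ => c) = fun _ => 0 := funext fun p => dY_const c p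
  have hT : Core.dT (fun _ : ℝ × ℝ => c) = fun _ => 0 := funext fun p => dT_const c p
  have h0 : TY q D 0 n (fun _ => 1) (fun _ => c) := by
    cases n with
    | zero => exact TY_zero_zero_iff.2 hb
    | succ n =>
      refine TY_zero_succ_iff.2 ⟨hb, ?_⟩
      rw [hY]
      exact TY.of_ev_zero (fun p _ => Filter.EventuallyEq.rfl)
  cases m with
  | zero => exact h0
  | succ m =>
    refine TY_succ_iff.2 ⟨h0, ?_⟩
    rw [hT]
    exact TY.of_ev_zero (fun p _ => Filter.EventuallyEq.rfl)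

end

end Claimed.Agent.R324.Core
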