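/-
Row 324 (S0582), PDE core, module AP (architect helper263), SYMBOL CALCULUS, file Alg (bundled versions, sum, pow): the classes `TY`, `TS` (Cal/Cls.lean) are closed under +, ·, c·, ∂_y, ∂_t.
Rules for dY, dT on `Sm` functions: Core/PR/Sm.lean (`dY_add, dY_mul, dY_const_mul, dT_add, dT_mul, …, Sm.dT_dY`, closure `Sm.add, Sm.mul, Sm.dY, Sm.dT, …`).    Recursion: `TY_succ_iff`, `TY_zero_succ_iff`, `TY_zero_zero_iff`.   Congruence: `TY.congr` (functions equal on t < 0), `TY.congr_wt`.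

PATTERN of every proof: (1) the case m = 0 by induction on n, generalising the weights and the functions;  (2) induction on m, generalising the weights and the functions.
* `TY.add`:  (1) n = 0: `Bd.add`.   n+1: `TY_zero_succ_iff`:  Bd.add;   dY (f+g) = dY f + dY g on t < 0 (`dY_add`) — `TY.congr` — then the induction hypothesis for dY f, dY g (`Sm.dY`).
             (2) m+1: `TY_succ_iff`:  first part by (1);   dT (f+g) = dT f + dT g (`dT_add`), induction hypothesis.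
* `TY.const_mul`: the same with `dY_const_mul`, `dT_const_mul`.     `TY.neg`: c = -1 (+ `TY.congr`).     `TY.sub`: add + neg.
* `TY.mul`:  (1) n+1:  Bd.mul;   dY (f g) = dY f * g + f * dY g (`dY_mul`);   dY f ∈ TY 0 n (ϱ₁/R), g ∈ TY 0 n ϱ₂ (`TY.of_le`)  ⟹ (IH)  dY f * g ∈ TY 0 n ((ϱ₁/R) ϱ₂), and (ϱ₁/R) ϱ₂ = (ϱ₁ ϱ₂)/R pointwise (`TY.congr_wt`, `div_mul_eq_mul_div`);  same for f * dY g;  `TY.add`.
             (2) m+1:  the same with dT, Θ.
* `TY.dT`: second part of `TY_succ_iff`.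
* `TY.dY`:  induction on m (generalising ϱ, f).   m = 0: second part of `TY_zero_succ_iff`.    m+1: `TY_succ_iff`: first part from the case m = 0;   second part:  dT (dY f) = dY (dT f) on t < 0 (`Sm.dT_dY`), `TY.congr`, IH for dT f ∈ TY m (n+1) (ϱ/Θ) gives TY m n ((ϱ/Θ)/R), and (ϱ/Θ)/R = (ϱ/R)/Θ (`div_right_comm`).
* `TY.sum`: `Finset.induction_on`;  empty sum: `TY.of_ev_zero` or Bd.of_zero;  insert: `TY.add` (+ `sm_sum`), `Finset.sum_insert`.
* `TY.pow`: induction on k;  k = 0: the constant 1 (`TY.const` below);  `pow_succ`, `TY.mul`.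
* `TY.const`:  dT^[i], dY^[j] of a constant are 0 for i+j ≥ 1 (`dY_const`, `dT_const`; prove `dT (fun _ => c) = fun _ => 0` by funext), so only (i,j) = (0,0) matters: |c| ≤ |c| * 1.   Use the recursion lemmas + `TY.of_ev_zero`.
* the `TS.*` versions: combine with the closure of `Sm`.
-/
import Claimed.Agent.R324.Core.AP.Cal.AlgB

set_option autoImplicit false

namespace Claimed.Agent.R324.Core

open Set Filter Topology
open scoped ContDiff

noncomputable section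

variable {q : ℝ} {D : Set (ℝ × ℝ)} {m n : ℕ} {ϱ ϱ₁ ϱ₂ f g : Fn}

/-! ### the bundled versions -/

theorem TS.of_le {m' n' : ℕ} (hm : m' ≤ m) (hn : n' ≤ n) (h : TS q D m n ϱ f) : TS q D m' n' ϱ f :=
  ⟨h.sm, h.bd.of_le hm hn⟩

theorem TS.subset {D' : Set (ℝ × ℝ)} (hs : D' ⊆ D) (h : TS q D m n ϱ f) : TS q D' m n ϱ f :=
  ⟨h.sm, h.bd.subset hs⟩

theorem TS.mono_wt {ϱ' : Fn} (hq : 1 < q) (hD : DomOK D) {K : ℝ} (hK : 0 ≤ K)
    (h : ∀ p ∈ D, ϱ p ≤ K * ϱ' p) (hf : TS q D m n ϱ f) : TS q D m n ϱ' f :=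
  ⟨hf.sm, hf.bd.mono_wt hq hD hK h⟩

theorem TS.congr_wt {ϱ' : Fn} (h : ∀ p ∈ D, ϱ p = ϱ' p) (hf : TS q D m n ϱ f) : TS q D m n ϱ' f :=
  ⟨hf.sm, hf.bd.congr_wt h⟩

theorem TS.congr (hD : DomOK D) (h : ∀ t < 0, ∀ y, f (t, y) = g (t, y)) (hg : TS q D m n ϱ g) :
    TS q D m n ϱ f :=
  ⟨hg.sm.congr h, hg.bd.congr hD h⟩

theorem TS.add (hD : DomOK D) (h1 : TS q D m n ϱ f) (h2 : TS q D m n ϱ g) :
    TS q D m n ϱ (fun p => f p + g p) :=
  ⟨h1.sm.add h2.sm, h1.bd.add hD h1.sm h2.sm h2.bd⟩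

theorem TS.sub (hD : DomOK D) (h1 : TS q D m n ϱ f) (h2 : TS q D m n ϱ g) :
    TS q D m n ϱ (fun p => f p - g p) :=
  ⟨h1.sm.sub h2.sm, h1.bd.sub hD h1.sm h2.sm h2.bd⟩

theorem TS.neg (hD : DomOK D) (h : TS q D m n ϱ f) : TS q D m n ϱ (fun p => -f p) :=
  ⟨h.sm.neg, h.bd.neg hD h.sm⟩

theorem TS.const_mul (hD : DomOK D) (c : ℝ) (h : TS q D m n ϱ f) : TS q D m n ϱ (fun p => c * f p) :=
  ⟨h.sm.const_mul c, h.bd.const_mul hD c h.sm⟩

theorem TS.mul (hD : DomOK D) (h1 : TS q D m n ϱ₁ f) (h2 : TS q D m n ϱ₂ g) :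
    TS q D m n (fun p => ϱ₁ p * ϱ₂ p) (fun p => f p * g p) :=
  ⟨h1.sm.mul h2.sm, h1.bd.mul hD h1.sm h2.sm h2.bd⟩

theorem TS.dT (h : TS q D (m + 1) n ϱ f) : TS q D m n (fun p => ϱ p / Th p.1 p.2) (Core.dT f) :=
  ⟨h.sm.dT, h.bd.dT⟩

theorem TS.dY (hD : DomOK D) (h : TS q D m (n + 1) ϱ f) :
    TS q D m n (fun p => ϱ p / rh2 q p.1 p.2) (Core.dY f) :=
  ⟨h.sm.dY, h.bd.dY hD h.sm⟩

theorem TS.const (c : ℝ) : TS q D m n (fun _ => 1) (fun _ => c) := ⟨sm_const c, TY.const c⟩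

theorem TS.sum (hD : DomOK D) {ι : Type} (s : Finset ι) {F : ι → Fn}
    (h : ∀ k ∈ s, TS q D m n ϱ (F k)) : TS q D m n ϱ (fun p => ∑ k ∈ s, F k p) := by
  classical
  induction s using Finset.induction_on with
  | empty =>
    have e : (fun p : ℝ × ℝ => ∑ k ∈ (∅ : Finset ι), F k p) = fun _ => (0 : ℝ) := by
      funext p
      exact Finset.sum_empty
    rw [e]
    exact ⟨sm_const 0, TY.of_ev_zero (fun p _ => Filter.EventuallyEq.refl _ _)⟩
  | insert a s ha ih =>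
    have e : (fun p : ℝ × ℝ => ∑ k ∈ insert a s, F k p)
        = fun p => F a p + ∑ k ∈ s, F k p := by
      funext p
      exact Finset.sum_insert ha
    rw [e]
    exact TS.add hD (h a (Finset.mem_insert_self a s))
      (ih (fun k hk => h k (Finset.mem_insert_of_mem hk)))

theorem TS.pow (hD : DomOK D) (h : TS q D m n ϱ f) (k : ℕ) :
    TS q D m n (fun p => ϱ p ^ k) (fun p => f p ^ k) := by
  induction k with
  | zero =>
    have e1 : (fun p : ℝ × ℝ => ϱ p ^ 0) = fun _ => (1 : ℝ) := by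
      funext p
      exact pow_zero _
    have e2 : (fun p : ℝ × ℝ => f p ^ 0) = fun _ => (1 : ℝ) := by
      funext p
      exact pow_zero _
    rw [e1, e2]
    exact TS.const 1
  | succ k ih =>
    have e1 : (fun p : ℝ × ℝ => ϱ p ^ (k + 1)) = fun p => ϱ p ^ k * ϱ p := by
      funext p
      exact pow_succ _ _
    have e2 : (fun p : ℝ × ℝ => f p ^ (k + 1)) = fun p => f p ^ k * f p := by
      funext p
      exact pow_succ _ _
    rw [e1, e2]
    exact TS.mul hD ih h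

end

end Claimed.Agent.R324.Core
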