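/-
Row 324 (S0582), PDE core, module AP (architect helper263), SYMBOL CALCULUS, file ClsA: the classes `Bd`, `TY`, `TS` and their structural properties.
   Λ = -t,  r̂² = rh2 q t y,  Θ = Th t y  (Core/Defs.lean);   dY, dT = partial derivatives;   Sm = smooth on (-∞,0) × ℝ, calculus in Core/PR/Sm.lean (sorry-free; USE IT).
   Bd D ϱ f        :  |f| ≤ C ϱ on D
   TY q D m n ϱ f  :  |∂_y^j ∂_t^i f| ≤ C ϱ Θ^{-i} r̂^{-2j} on D,  i ≤ m, j ≤ n          (time derivatives INSIDE)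
   TS q D m n ϱ f  :  Sm f ∧ TY q D m n ϱ f.
D is an ARBITRARY set of points (t,y) with -1 ≤ t < 0, |y| ≤ 1 (`DomOK`); the derivatives are those of the global function f.

SKETCHES
* `Bd.*`: unfold, combine the constants (C ≥ 0 is part of the definition):  mono_wt: C*K;  add: C₁+C₂ (`abs_add_le`);  mul: C₁*C₂ (`abs_mul`, `mul_le_mul h₁ h₂ (abs_nonneg _) ((abs_nonneg _).trans h₁)`, ring);  const_mul: |c|*C;  union: max C₁ C₂ (uses ϱ ≥ 0);  of_zero: C = 0.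
* `rh2_pos_dom`:  rh2 = ell2 + Xt,  ell2 = (q-1)/100 * (-t)^(2γ) > 0 (`Real.rpow_pos_of_pos`),  Xt y ≥ 0 for |y| ≤ 1 (`Xt_nonneg`).
* `Xt_eq`:  y ≥ 1/2 ⟹ smoothTransition (2y) = 1 (`Real.smoothTransition.one_of_one_le`) ⟹ sgY y = y ⟹ Xt y = 1 - y² = Xf y.
* `Xt_mem`: y ≤ 1/2, -1 ≤ y:  s := smoothTransition (2y) ∈ [0,1];  y ≤ 0 ⟹ s = 0, sgY = 1/4;   0 ≤ y ≤ 1/2 ⟹ sgY = (1-s)/4 + s y ∈ [0,1/2];  so sgY² ≤ 1/4.
* `Xt_nonneg`: cases y ≤ 1/2 (`Xt_mem`) or y ≥ 1/2 (`Xt_eq`, Xf y = 1 - y²).     `Th_pos_dom`: Th = -t + Xt.     `domOK_Dm`: unfold.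
-/
import Claimed.Agent.R324.Core.PR.Sm

set_option autoImplicit false

namespace Claimed.Agent.R324.Core

open Set Filter Topology
open scoped ContDiff

noncomputable section

/-- admissible domains: `-1 ≤ t < 0`, `|y| ≤ 1`. -/
def DomOK (D : Set (ℝ × ℝ)) : Prop := ∀ p ∈ D, -1 ≤ p.1 ∧ p.1 < 0 ∧ -1 ≤ p.2 ∧ p.2 ≤ 1

/-- the rectangle `[-Λ₀,0) × I`. -/
def Dm (Λ₀ : ℝ) (I : Set ℝ) : Set (ℝ × ℝ) := Ico (-Λ₀) 0 ×ˢ I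

/-- `|f| ≤ C ϱ` on `D`. -/
def Bd (D : Set (ℝ × ℝ)) (ϱ f : Fn) : Prop := ∃ C : ℝ, 0 ≤ C ∧ ∀ p ∈ D, |f p| ≤ C * ϱ p

/-- `|∂_y^j ∂_t^i f| ≤ C ϱ Θ^{-i} r̂^{-2j}` on `D`, `i ≤ m`, `j ≤ n`. -/
def TY (q : ℝ) (D : Set (ℝ × ℝ)) (m n : ℕ) (ϱ f : Fn) : Prop :=
  ∀ i ≤ m, ∀ j ≤ n,
    Bd D (fun p => ϱ p / ((Th p.1 p.2) ^ i * (rh2 q p.1 p.2) ^ j)) (dY^[j] (dT^[i] f))

/-- smooth symbols. -/
structure TS (q : ℝ) (D : Set (ℝ × ℝ)) (m n : ℕ) (ϱ f : Fn) : Prop where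
  sm : Sm f
  bd : TY q D m n ϱ f

theorem core_ap_cls_hygiene : True := by
  have := @DomOK.eq_1
  have := @Dm.eq_1
  have := @Bd.eq_1
  have := @TY.eq_1
  trivial

variable {q : ℝ} {D D' D₁ D₂ : Set (ℝ × ℝ)} {m n m' n' : ℕ} {ϱ ϱ' ϱ₁ ϱ₂ f g : Fn}

/-! ### the weights -/

theorem Xt_eq {y : ℝ} (hy : 1 / 2 ≤ y) : Xt y = Xf y := by
  unfold Xt Xf sgY
  rw [Real.smoothTransition.one_of_one_le (by linarith)]
  ring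

theorem Xt_mem {y : ℝ} (hy : y ≤ 1 / 2) (hy' : -1 ≤ y) : 3 / 4 ≤ Xt y ∧ Xt y ≤ 1 := by
  have hs0 := Real.smoothTransition.nonneg (2 * y)
  have hs1 := Real.smoothTransition.le_one (2 * y)
  have key : 0 ≤ sgY y ∧ sgY y ≤ 1 / 2 := by
    unfold sgY
    rcases le_total y 0 with h | h
    · rw [Real.smoothTransition.zero_of_nonpos (by linarith)]
      constructor <;> norm_num
    · constructor
      · nlinarith [mul_nonneg hs0 h]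
      · nlinarith [mul_nonneg hs0 (by linarith : 0 ≤ 1 / 2 - y)]
  unfold Xt
  constructor
  · nlinarith [key.1, key.2]
  · nlinarith [sq_nonneg (sgY y)]

theorem Xt_nonneg {y : ℝ} (h1 : -1 ≤ y) (h2 : y ≤ 1) : 0 ≤ Xt y ∧ Xt y ≤ 1 := by
  rcases le_total y (1 / 2) with h | h
  · have := Xt_mem h h1
    exact ⟨by linarith [this.1], this.2⟩
  · rw [Xt_eq h]
    unfold Xf
    constructor <;> nlinarith

theorem rh2_pos_dom (hq : 1 < q) (hD : DomOK D) {p : ℝ × ℝ} (hp : p ∈ D) : 0 < rh2 q p.1 p.2 := by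
  obtain ⟨_, h2, h3, h4⟩ := hD p hp
  have hX := (Xt_nonneg h3 h4).1
  have hl : 0 < ell2 q p.1 := by
    unfold ell2 lam2
    have : 0 < (-p.1) ^ (2 * gaF q) := Real.rpow_pos_of_pos (by linarith) _
    have hq' : 0 < (q - 1) / 100 := by linarith
    exact mul_pos hq' this
  unfold rh2
  linarith

theorem Th_pos_dom (hD : DomOK D) {p : ℝ × ℝ} (hp : p ∈ D) : 0 < Th p.1 p.2 := by
  obtain ⟨_, h2, h3, h4⟩ := hD p hp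
  have hX := (Xt_nonneg h3 h4).1
  unfold Th
  linarith

theorem domOK_Dm {Λ₀ : ℝ} (h : Λ₀ ≤ 1) {I : Set ℝ} (hI : I ⊆ Icc (-1 : ℝ) 1) : DomOK (Dm Λ₀ I) := by
  intro p hp
  obtain ⟨h1, h2⟩ := hp
  have h3 := hI h2
  exact ⟨by linarith [h1.1], h1.2, h3.1, h3.2⟩

theorem DomOK.subset (hD : DomOK D) (h : D' ⊆ D) : DomOK D' := fun p hp => hD p (h hp)

/-! ### `Bd` -/

theorem Bd.mono_wt {K : ℝ} (hK : 0 ≤ K) (h : ∀ p ∈ D, ϱ p ≤ K * ϱ' p) (hf : Bd D ϱ f) : Bd D ϱ' f := by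
  obtain ⟨C, hC, hb⟩ := hf
  refine ⟨C * K, mul_nonneg hC hK, fun p hp => ?_⟩
  calc |f p| ≤ C * ϱ p := hb p hp
    _ ≤ C * (K * ϱ' p) := mul_le_mul_of_nonneg_left (h p hp) hC
    _ = C * K * ϱ' p := by ring

theorem Bd.congr (h : ∀ p ∈ D, f p = g p) (hg : Bd D ϱ g) : Bd D ϱ f := by
  obtain ⟨C, hC, hb⟩ := hg
  exact ⟨C, hC, fun p hp => by rw [h p hp]; exact hb p hp⟩

theorem Bd.add (hf : Bd D ϱ f) (hg : Bd D ϱ g) : Bd D ϱ (fun p => f p + g p) := by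
  obtain ⟨C₁, hC₁, hb₁⟩ := hf
  obtain ⟨C₂, hC₂, hb₂⟩ := hg
  refine ⟨C₁ + C₂, add_nonneg hC₁ hC₂, fun p hp => ?_⟩
  calc |f p + g p| ≤ |f p| + |g p| := abs_add_le _ _
    _ ≤ C₁ * ϱ p + C₂ * ϱ p := add_le_add (hb₁ p hp) (hb₂ p hp)
    _ = (C₁ + C₂) * ϱ p := by ring

theorem Bd.const_mul (c : ℝ) (hf : Bd D ϱ f) : Bd D ϱ (fun p => c * f p) := by
  obtain ⟨C, hC, hb⟩ := hf
  refine ⟨|c| * C, mul_nonneg (abs_nonneg c) hC, fun p hp => ?_⟩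
  calc |c * f p| = |c| * |f p| := abs_mul _ _
    _ ≤ |c| * (C * ϱ p) := mul_le_mul_of_nonneg_left (hb p hp) (abs_nonneg c)
    _ = |c| * C * ϱ p := by ring

theorem Bd.mul (hf : Bd D ϱ₁ f) (hg : Bd D ϱ₂ g) : Bd D (fun p => ϱ₁ p * ϱ₂ p) (fun p => f p * g p) := by
  obtain ⟨C₁, hC₁, hb₁⟩ := hf
  obtain ⟨C₂, hC₂, hb₂⟩ := hg
  refine ⟨C₁ * C₂, mul_nonneg hC₁ hC₂, fun p hp => ?_⟩
  calc |f p * g p| = |f p| * |g p| := abs_mul _ _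
    _ ≤ (C₁ * ϱ₁ p) * (C₂ * ϱ₂ p) :=
        mul_le_mul (hb₁ p hp) (hb₂ p hp) (abs_nonneg _) ((abs_nonneg _).trans (hb₁ p hp))
    _ = C₁ * C₂ * (ϱ₁ p * ϱ₂ p) := by ring

theorem Bd.subset (h : D' ⊆ D) (hf : Bd D ϱ f) : Bd D' ϱ f := by
  obtain ⟨C, hC, hb⟩ := hf
  exact ⟨C, hC, fun p hp => hb p (h hp)⟩

theorem Bd.union (h0 : ∀ p ∈ D₁ ∪ D₂, 0 ≤ ϱ p) (h1 : Bd D₁ ϱ f) (h2 : Bd D₂ ϱ f) : Bd (D₁ ∪ D₂) ϱ f := by
  obtain ⟨C₁, hC₁, hb₁⟩ := h1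
  obtain ⟨C₂, hC₂, hb₂⟩ := h2
  refine ⟨max C₁ C₂, hC₁.trans (le_max_left _ _), fun p hp => ?_⟩
  rcases hp with hp' | hp'
  · exact (hb₁ p hp').trans (mul_le_mul_of_nonneg_right (le_max_left _ _) (h0 p (Or.inl hp')))
  · exact (hb₂ p hp').trans (mul_le_mul_of_nonneg_right (le_max_right _ _) (h0 p (Or.inr hp')))

theorem Bd.of_zero (h : ∀ p ∈ D, f p = 0) : Bd D ϱ f := by
  exact ⟨0, le_rfl, fun p hp => by rw [h p hp, abs_zero, zero_mul]⟩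

end

end Claimed.Agent.R324.Core
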