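/-
Row 324 (S0582), PDE core, module AP (architect helper263), SYMBOL CALCULUS, file ClsB: recursion and structural properties of `TY` (definitions in Cal/ClsA.lean).

SKETCHES
* `TY_succ_iff`:  (→) i = 0 gives the first part (restrict `∀ i ≤ m+1` to i ≤ 0, i.e. i = 0);  i+1 gives the second:  dT^[i+1] f = dT^[i] (dT f) (`Function.iterate_succ_apply`),
      weight  ϱ/(Θ^(i+1) * R^j) = (ϱ/Θ)/(Θ^i * R^j)  as FUNCTIONS (funext; `div_div`, `pow_succ`, ring_nf; no positivity needed).   (←) cases i.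
* `TY_zero_succ_iff`: the same in j:  dY^[j+1] g = dY^[j] (dY g);  for i ≤ 0: i = 0, dT^[0] f = f.    j = 0: weight ϱ/(Θ^0 * R^0) = ϱ (simp).
* `TY.of_le`: restriction of the quantifiers.     `TY.subset`, `TY.union`: from `Bd`.
* `TY.mono_wt`:  ϱ/(Θ^i R^j) ≤ K ϱ'/(Θ^i R^j)  since Θ^i R^j > 0 on D (`Th_pos_dom`, `rh2_pos_dom`; `div_le_div_of_nonneg_right`, `mul_div_assoc`).
* `TY_zero_zero_iff`, `TY.bd0`: (i,j) = (0,0), weight ϱ/(Θ^0 * R^0) = ϱ (simp).     `TY.congr_wt`: the weights agree on D, so `Bd` transfers (rewrite inside: |..| ≤ C * (ϱ p/..) and ϱ p = ϱ' p).     `TY.union`: `Bd.union`; the weight ϱ/(Θ^i R^j) is ≥ 0 on D₁ ∪ D₂.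
-/
import Claimed.Agent.R324.Core.AP.Cal.ClsA

set_option autoImplicit false

namespace Claimed.Agent.R324.Core

open Set Filter Topology
open scoped ContDiff

noncomputable section

variable {q : ℝ} {D D' D₁ D₂ : Set (ℝ × ℝ)} {m n m' n' : ℕ} {ϱ ϱ' ϱ₁ ϱ₂ f g : Fn}

/-! ### recursion -/

theorem ap_wt_succ_T (ϱ : Fn) (q : ℝ) (i j : ℕ) :
    (fun p : ℝ × ℝ => ϱ p / ((Th p.1 p.2) ^ (i + 1) * (rh2 q p.1 p.2) ^ j)) =
      (fun p : ℝ × ℝ => (ϱ p / Th p.1 p.2) / ((Th p.1 p.2) ^ i * (rh2 q p.1 p.2) ^ j)) := by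
  funext p
  rw [div_div]
  congr 1
  ring

theorem ap_wt_succ_Y (ϱ : Fn) (q : ℝ) (i j : ℕ) :
    (fun p : ℝ × ℝ => ϱ p / ((Th p.1 p.2) ^ i * (rh2 q p.1 p.2) ^ (j + 1))) =
      (fun p : ℝ × ℝ => (ϱ p / rh2 q p.1 p.2) / ((Th p.1 p.2) ^ i * (rh2 q p.1 p.2) ^ j)) := by
  funext p
  rw [div_div]
  congr 1
  ring

theorem ap_wt_zero (ϱ : Fn) (q : ℝ) :
    (fun p : ℝ × ℝ => ϱ p / ((Th p.1 p.2) ^ 0 * (rh2 q p.1 p.2) ^ 0)) = ϱ := by
  funext p
  simp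

theorem ap_wt_pos (hq : 1 < q) (hD : DomOK D) {p : ℝ × ℝ} (hp : p ∈ D) (i j : ℕ) :
    0 < (Th p.1 p.2) ^ i * (rh2 q p.1 p.2) ^ j :=
  mul_pos (pow_pos (Th_pos_dom hD hp) i) (pow_pos (rh2_pos_dom hq hD hp) j)

theorem TY_succ_iff : TY q D (m + 1) n ϱ f ↔
    TY q D 0 n ϱ f ∧ TY q D m n (fun p => ϱ p / Th p.1 p.2) (dT f) := by
  constructor
  · intro h
    refine ⟨fun i hi j hj => h i (by omega) j hj, fun i hi j hj => ?_⟩
    have h1 := h (i + 1) (by omega) j hj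
    rw [ap_wt_succ_T, Function.iterate_succ_apply] at h1
    exact h1
  · rintro ⟨h0, h1⟩ i hi j hj
    cases i with
    | zero => exact h0 0 le_rfl j hj
    | succ i =>
      rw [ap_wt_succ_T, Function.iterate_succ_apply]
      exact h1 i (by omega) j hj

theorem TY_zero_succ_iff : TY q D 0 (n + 1) ϱ f ↔
    Bd D ϱ f ∧ TY q D 0 n (fun p => ϱ p / rh2 q p.1 p.2) (dY f) := by
  constructor
  · intro h
    refine ⟨?_, fun i hi j hj => ?_⟩
    · have h1 := h 0 le_rfl 0 (Nat.zero_le _)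
      rw [ap_wt_zero] at h1
      exact h1
    · obtain rfl := Nat.le_zero.1 hi
      have h1 := h 0 le_rfl (j + 1) (by omega)
      rw [ap_wt_succ_Y, Function.iterate_succ_apply] at h1
      exact h1
  · rintro ⟨h0, h1⟩ i hi j hj
    obtain rfl := Nat.le_zero.1 hi
    cases j with
    | zero =>
      rw [ap_wt_zero]
      exact h0
    | succ j =>
      rw [ap_wt_succ_Y, Function.iterate_succ_apply]
      exact h1 0 le_rfl j (by omega)

theorem TY_zero_zero_iff : TY q D 0 0 ϱ f ↔ Bd D ϱ f := by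
  constructor
  · intro h
    have h1 := h 0 le_rfl 0 le_rfl
    rw [ap_wt_zero] at h1
    exact h1
  · intro h i hi j hj
    obtain rfl := Nat.le_zero.1 hi
    obtain rfl := Nat.le_zero.1 hj
    rw [ap_wt_zero]
    exact h

theorem TY.of_le (hm : m' ≤ m) (hn : n' ≤ n) (h : TY q D m n ϱ f) : TY q D m' n' ϱ f :=
  fun i hi j hj => h i (hi.trans hm) j (hj.trans hn)

theorem TY.bd0 (h : TY q D m n ϱ f) : Bd D ϱ f := by
  have h1 := h 0 (Nat.zero_le _) 0 (Nat.zero_le _)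
  rw [ap_wt_zero] at h1
  exact h1

theorem TY.subset (hs : D' ⊆ D) (h : TY q D m n ϱ f) : TY q D' m n ϱ f :=
  fun i hi j hj => (h i hi j hj).subset hs

theorem TY.union (hq : 1 < q) (hD : DomOK (D₁ ∪ D₂)) (h0 : ∀ p ∈ D₁ ∪ D₂, 0 ≤ ϱ p)
    (h1 : TY q D₁ m n ϱ f) (h2 : TY q D₂ m n ϱ f) : TY q (D₁ ∪ D₂) m n ϱ f := by
  intro i hi j hj
  exact Bd.union (fun p hp => div_nonneg (h0 p hp) (ap_wt_pos hq hD hp i j).le) (h1 i hi j hj) (h2 i hi j hj)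

theorem TY.mono_wt (hq : 1 < q) (hD : DomOK D) {K : ℝ} (hK : 0 ≤ K) (h : ∀ p ∈ D, ϱ p ≤ K * ϱ' p)
    (hf : TY q D m n ϱ f) : TY q D m n ϱ' f := by
  intro i hi j hj
  refine Bd.mono_wt hK (fun p hp => ?_) (hf i hi j hj)
  show ϱ p / _ ≤ K * (ϱ' p / _)
  rw [← mul_div_assoc]
  exact div_le_div_of_nonneg_right (h p hp) (ap_wt_pos hq hD hp i j).le

theorem TY.congr_wt (h : ∀ p ∈ D, ϱ p = ϱ' p) (hf : TY q D m n ϱ f) : TY q D m n ϱ' f := by
  intro i hi j hj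
  refine Bd.mono_wt zero_le_one (fun p hp => ?_) (hf i hi j hj)
  show ϱ p / _ ≤ 1 * (ϱ' p / _)
  rw [h p hp, one_mul]

end

end Claimed.Agent.R324.Core
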