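/-
Row 324 (S0582), PDE core, module AP (architect helper263), SYMBOL CALCULUS, file ClsC: congruence properties of `TY` (definitions in Cal/ClsA.lean).

SKETCHES
* `evEq_dY`, `evEq_dT`:  f =ᶠ[𝓝 p] g  ⟹  ∀ᶠ x in 𝓝 p, f =ᶠ[𝓝 x] g (`Filter.Eventually.eventually_nhds`);  for such x the slices are eventually equal (compose with the continuous map z ↦ (x.1, z): `ContinuousAt.eventually`/`Filter.Tendsto.eventually`), `Filter.EventuallyEq.deriv_eq`.
* `evEq_iter`: induction.     `TY.congr_ev`: `evEq_iter` + `Filter.EventuallyEq.eq_of_nhds`, `Bd.congr`.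
* `TY.congr`: Ω = Iio 0 ×ˢ univ is open, so f = g on Ω gives f =ᶠ[𝓝 p] g at every p ∈ D (p.1 < 0).

* `TY.of_ev_zero`: `TY.congr_ev` reduces to the zero function;  dT (fun _ => 0) = fun _ => 0, dY (fun _ => 0) = fun _ => 0 (funext, `dT_const`, `dY_const`), so all iterates are the zero function (induction, `Function.iterate_succ_apply`); `Bd.of_zero`.
-/
import Claimed.Agent.R324.Core.AP.Cal.ClsB

set_option autoImplicit false

namespace Claimed.Agent.R324.Core

open Set Filter Topology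
open scoped ContDiff

noncomputable section

variable {q : ℝ} {D D' D₁ D₂ : Set (ℝ × ℝ)} {m n m' n' : ℕ} {ϱ ϱ' ϱ₁ ϱ₂ f g : Fn}

/-! ### congruence -/

theorem evEq_dY {p : ℝ × ℝ} (h : f =ᶠ[𝓝 p] g) : dY f =ᶠ[𝓝 p] dY g := by
  filter_upwards [h.eventually_nhds] with x hx
  unfold dY
  apply Filter.EventuallyEq.deriv_eq
  have hc : ContinuousAt (fun z : ℝ => (x.1, z)) x.2 := by fun_prop
  exact hc.eventually (p := fun w => f w = g w) hx

theorem evEq_dT {p : ℝ × ℝ} (h : f =ᶠ[𝓝 p] g) : dT f =ᶠ[𝓝 p] dT g := by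
  filter_upwards [h.eventually_nhds] with x hx
  unfold dT
  apply Filter.EventuallyEq.deriv_eq
  have hc : ContinuousAt (fun s : ℝ => (s, x.2)) x.1 := by fun_prop
  exact hc.eventually (p := fun w => f w = g w) hx

theorem evEq_iter {p : ℝ × ℝ} (h : f =ᶠ[𝓝 p] g) (i j : ℕ) :
    dY^[j] (dT^[i] f) =ᶠ[𝓝 p] dY^[j] (dT^[i] g) := by
  have h1 : ∀ i : ℕ, dT^[i] f =ᶠ[𝓝 p] dT^[i] g := by
    intro i
    induction i with
    | zero => exact h
    | succ i ih =>
      rw [Function.iterate_succ_apply', Function.iterate_succ_apply']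
      exact evEq_dT ih
  induction j with
  | zero => exact h1 i
  | succ j ih =>
    rw [Function.iterate_succ_apply', Function.iterate_succ_apply']
    exact evEq_dY ih

theorem TY.congr_ev (h : ∀ p ∈ D, f =ᶠ[𝓝 p] g) (hg : TY q D m n ϱ g) : TY q D m n ϱ f := by
  intro i hi j hj
  exact Bd.congr (fun p hp => (evEq_iter (h p hp) i j).eq_of_nhds) (hg i hi j hj)

theorem TY.congr (hD : DomOK D) (h : ∀ t < 0, ∀ y, f (t, y) = g (t, y)) (hg : TY q D m n ϱ g) :
    TY q D m n ϱ f := by
  refine TY.congr_ev (fun p hp => ?_) hg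
  have hp1 : p.1 < 0 := (hD p hp).2.1
  have ho : IsOpen {x : ℝ × ℝ | x.1 < 0} := isOpen_lt continuous_fst continuous_const
  filter_upwards [ho.mem_nhds hp1] with x hx
  exact h x.1 hx x.2

theorem TY.of_ev_zero (h : ∀ p ∈ D, f =ᶠ[𝓝 p] fun _ => 0) : TY q D m n ϱ f := by
  refine TY.congr_ev h ?_
  intro i _ j _
  have h1 : ∀ i : ℕ, dT^[i] (fun _ => 0 : Fn) = fun _ => 0 := by
    intro i
    induction i with
    | zero => rfl
    | succ i ih =>
      rw [Function.iterate_succ_apply', ih]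
      funext p
      exact dT_const 0 p
  have h2 : ∀ j : ℕ, dY^[j] (fun _ => 0 : Fn) = fun _ => 0 := by
    intro j
    induction j with
    | zero => rfl
    | succ j ih =>
      rw [Function.iterate_succ_apply', ih]
      funext p
      exact dY_const 0 p
  rw [h1, h2]
  exact Bd.of_zero (fun _ _ => rfl)

end

end Claimed.Agent.R324.Core
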