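/-
Row 324 (S0582), PDE core, module AP (architect helper263), SYMBOL CALCULUS, file CompA (TY.comp): composition with smooth functions of one variable, inverses, functions of y.
Classes: Cal/Cls.lean;  algebra: Cal/Alg.lean;  rules for dY, dT: Core/PR/Sm.lean (`dY_comp, dT_comp, dY_inv, dT_inv, Sm.comp, Sm.inv, sm_of_y, dT_of_y`).

* `TY.comp`.   (0) Bd:  |f| ≤ C on D (`TY.bd0`, weight 1);  Ψ is continuous, so bounded by M on the compact Icc (-C) C (`IsCompact.exists_bound_of_continuousOn`).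
     (1) m = 0, induction on n GENERALISING Ψ:   `TY_zero_succ_iff`;   dY (Ψ∘f) = (Ψ'∘f) * dY f on t < 0 (`dY_comp`, Ψ' = deriv Ψ is again ContDiff ℝ ∞: `contDiff_infty_iff_deriv`);
         Ψ'∘f ∈ TY 0 n 1 by the induction hypothesis (f ∈ TY 0 n 1 by `TY.of_le`),  dY f ∈ TY 0 n (1/R);   `TY.mul`, `TY.congr_wt` (1 * (1/R) = 1/R), `TY.congr`.
     (2) induction on m GENERALISING Ψ:  `TY_succ_iff`;  dT (Ψ∘f) = (Ψ'∘f) * dT f.
* `TY.inv`.  Same pattern;  Bd: 0 < c ϱ ≤ f ⟹ |f⁻¹| = 1/f ≤ (1/c)(1/ϱ).    dY (f⁻¹) = -dY f * (f⁻¹ * f⁻¹) on t < 0 (`dY_inv` + algebra; f ≠ 0 there);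
     induction hypothesis: f⁻¹ ∈ TY 0 n (1/ϱ);  product weight (ϱ/R) * ((1/ϱ) * (1/ϱ)) = (1/ϱ)/R on D since ϱ ≠ 0 (`field_simp`).   In the induction on n resp. m the function f and the weight ϱ are FIXED (only the order decreases: use `TY.of_le`).
* `rh2_le_dom`: rh2 = (q-1)/100 * (-t)^(2γ) + Xt ≤ (q-1)/100 + 1:  (-t)^(2γ) ≤ 1 for 0 < -t ≤ 1 and 2γ ≥ 0 (`Real.rpow_le_one`; γ = 8/α, α = bAl q > 0: `bAl_bounds`, Bohm/Alpha.lean);  Xt ≤ 1 (`Xt_nonneg`).      `Th_le_dom`: -t ≤ 1, Xt ≤ 1.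
* `TY.yfun`:   dT (fun p => φ p.2) = fun _ => 0 (`dT_of_y`);  dY (fun p => φ p.2) = fun p => deriv φ p.2 (rfl/funext).   Pattern (1): Bd: φ continuous on the compact Icc (-1) 1;  weight: 1 ≤ K * (1/R) with K = (q-1)/100+1: prove first the statement
         ∀ n, ∀ φ smooth, ∀ K' ≥ 0-type weights …   EASIEST: prove  ∀ j, Bd D (fun p => 1/(Θ^0 * R^j)) (fun p => iteratedDeriv j φ p.2) directly:   |φ^(j)| ≤ M_j on [-1,1],   1 ≤ K^j /R^j;    dY^[j] (fun p => φ p.2) = fun p => iteratedDeriv j φ p.2 (`iteratedDeriv_sl` with sl = φ);   for i ≥ 1 the function dT^[i] .. is 0 (`Bd.of_zero`).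
-/
import Claimed.Agent.R324.Core.AP.Cal.Alg

set_option autoImplicit false

namespace Claimed.Agent.R324.Core

open Set Filter Topology
open scoped ContDiff

noncomputable section

variable {q : ℝ} {D : Set (ℝ × ℝ)} {m n : ℕ} {ϱ f g : Fn}

theorem ap_bd_comp {Ψ : ℝ → ℝ} (hΨ : Continuous Ψ) (h : Bd D (fun _ => 1) f) :
    Bd D (fun _ => 1) (fun p => Ψ (f p)) := by
  obtain ⟨C, hC0, hC⟩ := h
  obtain ⟨M, hM⟩ := (isCompact_Icc (a := -C) (b := C)).exists_bound_of_continuousOn hΨ.continuousOn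
  refine ⟨max M 0, le_max_right _ _, fun p hp => ?_⟩
  have h1 := hC p hp
  rw [mul_one] at h1
  have h2 := hM (f p) (abs_le.1 h1)
  rw [Real.norm_eq_abs] at h2
  rw [mul_one]
  exact h2.trans (le_max_left _ _)

theorem ap_comp_zero (hD : DomOK D) (hf : Sm f) : ∀ (n : ℕ) (Ψ : ℝ → ℝ), ContDiff ℝ ∞ Ψ →
    TY q D 0 n (fun _ => 1) f → TY q D 0 n (fun _ => 1) (fun p => Ψ (f p)) := by
  intro n
  induction n with
  | zero =>
    intro Ψ hΨ h
    rw [TY_zero_zero_iff] at h ⊢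
    exact ap_bd_comp hΨ.continuous h
  | succ n ih =>
    intro Ψ hΨ h
    have hΨ' : ContDiff ℝ ∞ (deriv Ψ) := (contDiff_infty_iff_deriv.1 hΨ).2
    have h' := TY_zero_succ_iff.1 h
    rw [TY_zero_succ_iff]
    refine ⟨ap_bd_comp hΨ.continuous h'.1, ?_⟩
    have h1 : TY q D 0 n (fun _ => 1) (fun p => deriv Ψ (f p)) :=
      ih (deriv Ψ) hΨ' (h.of_le le_rfl (Nat.le_succ n))
    have h2 := TY.mul hD (hf.comp hΨ') hf.dY h1 h'.2
    refine TY.congr hD (g := fun p => deriv Ψ (f p) * dY f p) ?_ (h2.congr_wt fun p _ => by simp)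
    intro t ht y
    exact dY_comp (hΨ.differentiable (by simp)) hf ht y

theorem ap_comp_all (hD : DomOK D) (hf : Sm f) (n : ℕ) : ∀ (m : ℕ) (Ψ : ℝ → ℝ), ContDiff ℝ ∞ Ψ →
    TY q D m n (fun _ => 1) f → TY q D m n (fun _ => 1) (fun p => Ψ (f p)) := by
  intro m
  induction m with
  | zero => exact fun Ψ hΨ h => ap_comp_zero hD hf n Ψ hΨ h
  | succ m ih =>
    intro Ψ hΨ h
    have hΨ' : ContDiff ℝ ∞ (deriv Ψ) := (contDiff_infty_iff_deriv.1 hΨ).2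
    have h' := TY_succ_iff.1 h
    rw [TY_succ_iff]
    refine ⟨ap_comp_zero hD hf n Ψ hΨ h'.1, ?_⟩
    have h1 : TY q D m n (fun _ => 1) (fun p => deriv Ψ (f p)) :=
      ih (deriv Ψ) hΨ' (h.of_le (Nat.le_succ m) le_rfl)
    have h2 := TY.mul hD (hf.comp hΨ') hf.dT h1 h'.2
    refine TY.congr hD (g := fun p => deriv Ψ (f p) * dT f p) ?_ (h2.congr_wt fun p _ => by simp)
    intro t ht y
    exact dT_comp (hΨ.differentiable (by simp)) hf ht y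

theorem TY.comp (hD : DomOK D) {Ψ : ℝ → ℝ} (hΨ : ContDiff ℝ ∞ Ψ) (hf : Sm f)
    (h : TY q D m n (fun _ => 1) f) : TY q D m n (fun _ => 1) (fun p => Ψ (f p)) :=
  ap_comp_all hD hf n m Ψ hΨ h

theorem TS.comp (hD : DomOK D) {Ψ : ℝ → ℝ} (hΨ : ContDiff ℝ ∞ Ψ) (h : TS q D m n (fun _ => 1) f) :
    TS q D m n (fun _ => 1) (fun p => Ψ (f p)) :=
  ⟨h.sm.comp hΨ, h.bd.comp hD hΨ h.sm⟩

end

end Claimed.Agent.R324.Core
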