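/-
Row 324 (S0582), PDE core, module AP (architect helper263), SYMBOL CALCULUS, file CompB (TY.inv): composition with smooth functions of one variable, inverses, functions of y.
Classes: Cal/Cls.lean;  algebra: Cal/Alg.lean;  rules for dY, dT: Core/PR/Sm.lean (`dY_comp, dT_comp, dY_inv, dT_inv, Sm.comp, Sm.inv, sm_of_y, dT_of_y`).

* `TY.comp`.   (0) Bd:  |f| ≤ C on D (`TY.bd0`, weight 1);  Ψ is continuous, so bounded by M on the compact Icc (-C) C (`IsCompact.exists_bound_of_continuousOn`).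
     (1) m = 0, induction on n GENERALISING Ψ:   `TY_zero_succ_iff`;   dY (Ψ∘f) = (Ψ'∘f) * dY f on t < 0 (`dY_comp`, Ψ' = deriv Ψ is again ContDiff ℝ ∞: `contDiff_infty_iff_deriv`);
         Ψ'∘f ∈ TY 0 n 1 by the induction hypothesis (f ∈ TY 0 n 1 by `TY.of_le`),  dY f ∈ TY 0 n (1/R);   `TY.mul`, `TY.congr_wt` (1 * (1/R) = 1/R), `TY.congr`.
     (2) induction on m GENERALISING Ψ:  `TY_succ_iff`;  dT (Ψ∘f) = (Ψ'∘f) * dT f.
* `TY.inv`.  Same pattern;  Bd: 0 < c ϱ ≤ f ⟹ |f⁻¹| = 1/f ≤ (1/c)(1/ϱ).    dY (f⁻¹) = -dY f * (f⁻¹ * f⁻¹) on t < 0 (`dY_inv` + algebra; f ≠ 0 there);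
     induction hypothesis: f⁻¹ ∈ TY 0 n (1/ϱ);  product weight (ϱ/R) * ((1/ϱ) * (1/ϱ)) = (1/ϱ)/R on D since ϱ ≠ 0 (`field_simp`).   In the induction on n resp. m the function f and the weight ϱ are FIXED (only the order decreases: use `TY.of_le`).
* `rh2_le_dom`: rh2 = (q-1)/100 * (-t)^(2γ) + Xt ≤ (q-1)/100 + 1:  (-t)^(2γ) ≤ 1 for 0 < -t ≤ 1 and 2γ ≥ 0 (`Real.rpow_le_one`; γ = 8/α, α = bAl q > 0: `bAl_bounds`, Bohm/Alpha.lean);  Xt ≤ 1 (`Xt_nonneg`).      `Th_le_dom`: -t ≤ 1, Xt ≤ 1.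
* `TY.yfun`:   dT (fun p => φ p.2) = fun _ => 0 (`dT_of_y`);  dY (fun p => φ p.2) = fun p => deriv φ p.2 (rfl/funext).   Pattern (1): Bd: φ continuous on the compact Icc (-1) 1;  weight: 1 ≤ K * (1/R) with K = (q-1)/100+1: prove first the statement
         ∀ n, ∀ φ smooth, ∀ K' ≥ 0-type weights …   EASIEST: prove  ∀ j, Bd D (fun p => 1/(Θ^0 * R^j)) (fun p => iteratedDeriv j φ p.2) directly:   |φ^(j)| ≤ M_j on [-1,1],   1 ≤ K^j /R^j;    dY^[j] (fun p => φ p.2) = fun p => iteratedDeriv j φ p.2 (`iteratedDeriv_sl` with sl = φ);   for i ≥ 1 the function dT^[i] .. is 0 (`Bd.of_zero`).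
-/
import Claimed.Agent.R324.Core.AP.Cal.Alg

set_option autoImplicit false

namespace Claimed.Agent.R324.Core

open Set Filter Topology
open scoped ContDiff

noncomputable section

variable {q : ℝ} {D : Set (ℝ × ℝ)} {m n : ℕ} {ϱ f g : Fn}

theorem ap_inv_bd {c : ℝ} (hc : 0 < c) (hϱ : ∀ p ∈ D, 0 < ϱ p) (hlow : ∀ p ∈ D, c * ϱ p ≤ f p) :
    Bd D (fun p => 1 / ϱ p) (fun p => (f p)⁻¹) := by
  refine ⟨1 / c, by positivity, fun p hp => ?_⟩
  have h1 : 0 < c * ϱ p := mul_pos hc (hϱ p hp)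
  have h2 : 0 < f p := lt_of_lt_of_le h1 (hlow p hp)
  show |(f p)⁻¹| ≤ 1 / c * (1 / ϱ p)
  rw [abs_of_pos (inv_pos.2 h2), one_div_mul_one_div, ← one_div]
  exact one_div_le_one_div_of_le h1 (hlow p hp)

theorem ap_inv_wt {a : ℝ} (ha : a ≠ 0) (R : ℝ) : a / R * (1 / a * (1 / a)) = 1 / a / R := by
  rw [div_mul_eq_mul_div]
  congr 1
  field_simp

theorem TY.inv (hD : DomOK D) (hf : Sm f) (h0 : ∀ t < 0, ∀ y, f (t, y) ≠ 0) (h : TY q D m n ϱ f)
    {c : ℝ} (hc : 0 < c) (hϱ : ∀ p ∈ D, 0 < ϱ p) (hlow : ∀ p ∈ D, c * ϱ p ≤ f p) :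
    TY q D m n (fun p => 1 / ϱ p) (fun p => (f p)⁻¹) := by
  have hg : Sm (fun p => (f p)⁻¹) := hf.inv h0
  have hbd : Bd D (fun p => 1 / ϱ p) (fun p => (f p)⁻¹) := ap_inv_bd hc hϱ hlow
  -- the case `m = 0`
  have step1 : ∀ n : ℕ, TY q D 0 n ϱ f → TY q D 0 n (fun p => 1 / ϱ p) (fun p => (f p)⁻¹) := by
    intro n
    induction n with
    | zero => intro _; exact TY_zero_zero_iff.2 hbd
    | succ n ih =>
      intro h
      have hg' := ih (h.of_le le_rfl (Nat.le_succ n))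
      have hd := (TY_zero_succ_iff.1 h).2
      refine TY_zero_succ_iff.2 ⟨hbd, ?_⟩
      have hp := TY.mul hD hf.dY.neg (hg.mul hg) (TY.neg hD hf.dY hd) (TY.mul hD hg hg hg' hg')
      refine TY.congr hD (g := fun p => -Core.dY f p * ((f p)⁻¹ * (f p)⁻¹)) ?_ (TY.congr_wt ?_ hp)
      · intro t ht y
        rw [dY_inv hf ht y (h0 t ht y)]
        have := h0 t ht y
        field_simp
      · intro p hp
        exact ap_inv_wt (hϱ p hp).ne' _
  induction m with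
  | zero => exact step1 n h
  | succ m ih =>
    have hg' := ih (h.of_le (Nat.le_succ m) le_rfl)
    have hd := (TY_succ_iff.1 h).2
    refine TY_succ_iff.2 ⟨step1 n (TY_succ_iff.1 h).1, ?_⟩
    have hp := TY.mul hD hf.dT.neg (hg.mul hg) (TY.neg hD hf.dT hd) (TY.mul hD hg hg hg' hg')
    refine TY.congr hD (g := fun p => -Core.dT f p * ((f p)⁻¹ * (f p)⁻¹)) ?_ (TY.congr_wt ?_ hp)
    · intro t ht y
      rw [dT_inv hf ht y (h0 t ht y)]
      have := h0 t ht y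
      field_simp
    · intro p hp
      exact ap_inv_wt (hϱ p hp).ne' _

theorem TS.inv (hD : DomOK D) (h0 : ∀ t < 0, ∀ y, f (t, y) ≠ 0) (h : TS q D m n ϱ f)
    {c : ℝ} (hc : 0 < c) (hϱ : ∀ p ∈ D, 0 < ϱ p) (hlow : ∀ p ∈ D, c * ϱ p ≤ f p) :
    TS q D m n (fun p => 1 / ϱ p) (fun p => (f p)⁻¹) :=
  ⟨h.sm.inv h0, h.bd.inv hD h.sm h0 hc hϱ hlow⟩

end

end Claimed.Agent.R324.Core
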