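/-
Row 324 (S0582), PDE core, module AP (architect helper263), SYMBOL CALCULUS, file CompC (rh2_le_dom, Th_le_dom, TY.yfun): composition with smooth functions of one variable, inverses, functions of y.
Classes: Cal/Cls.lean;  algebra: Cal/Alg.lean;  rules for dY, dT: Core/PR/Sm.lean (`dY_comp, dT_comp, dY_inv, dT_inv, Sm.comp, Sm.inv, sm_of_y, dT_of_y`).

* `TY.comp`.   (0) Bd:  |f| ≤ C on D (`TY.bd0`, weight 1);  Ψ is continuous, so bounded by M on the compact Icc (-C) C (`IsCompact.exists_bound_of_continuousOn`).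
     (1) m = 0, induction on n GENERALISING Ψ:   `TY_zero_succ_iff`;   dY (Ψ∘f) = (Ψ'∘f) * dY f on t < 0 (`dY_comp`, Ψ' = deriv Ψ is again ContDiff ℝ ∞: `contDiff_infty_iff_deriv`);
         Ψ'∘f ∈ TY 0 n 1 by the induction hypothesis (f ∈ TY 0 n 1 by `TY.of_le`),  dY f ∈ TY 0 n (1/R);   `TY.mul`, `TY.congr_wt` (1 * (1/R) = 1/R), `TY.congr`.
     (2) induction on m GENERALISING Ψ:  `TY_succ_iff`;  dT (Ψ∘f) = (Ψ'∘f) * dT f.
* `TY.inv`.  Same pattern;  Bd: 0 < c ϱ ≤ f ⟹ |f⁻¹| = 1/f ≤ (1/c)(1/ϱ).    dY (f⁻¹) = -dY f * (f⁻¹ * f⁻¹) on t < 0 (`dY_inv` + algebra; f ≠ 0 there);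
     induction hypothesis: f⁻¹ ∈ TY 0 n (1/ϱ);  product weight (ϱ/R) * ((1/ϱ) * (1/ϱ)) = (1/ϱ)/R on D since ϱ ≠ 0 (`field_simp`).   In the induction on n resp. m the function f and the weight ϱ are FIXED (only the order decreases: use `TY.of_le`).
* `rh2_le_dom`: rh2 = (q-1)/100 * (-t)^(2γ) + Xt ≤ (q-1)/100 + 1:  (-t)^(2γ) ≤ 1 for 0 < -t ≤ 1 and 2γ ≥ 0 (`Real.rpow_le_one`; γ = 8/α, α = bAl q > 0: `bAl_bounds`, Bohm/Alpha.lean);  Xt ≤ 1 (`Xt_nonneg`).      `Th_le_dom`: -t ≤ 1, Xt ≤ 1.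
* `TY.yfun`:   dT (fun p => φ p.2) = fun _ => 0 (`dT_of_y`);  dY (fun p => φ p.2) = fun p => deriv φ p.2 (rfl/funext).   Pattern (1): Bd: φ continuous on the compact Icc (-1) 1;  weight: 1 ≤ K * (1/R) with K = (q-1)/100+1: prove first the statement
         ∀ n, ∀ φ smooth, ∀ K' ≥ 0-type weights …   EASIEST: prove  ∀ j, Bd D (fun p => 1/(Θ^0 * R^j)) (fun p => iteratedDeriv j φ p.2) directly:   |φ^(j)| ≤ M_j on [-1,1],   1 ≤ K^j /R^j;    dY^[j] (fun p => φ p.2) = fun p => iteratedDeriv j φ p.2 (`iteratedDeriv_sl` with sl = φ);   for i ≥ 1 the function dT^[i] .. is 0 (`Bd.of_zero`).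
-/
import Claimed.Agent.R324.Core.AP.Cal.Alg
import Claimed.Agent.R324.Bohm.Alpha

set_option autoImplicit false

namespace Claimed.Agent.R324.Core

open Set Filter Topology
open scoped ContDiff

noncomputable section

variable {q : ℝ} {D : Set (ℝ × ℝ)} {m n : ℕ} {ϱ f g : Fn}

theorem rh2_le_dom (hq : 100 ≤ q) (hD : DomOK D) {p : ℝ × ℝ} (hp : p ∈ D) :
    rh2 q p.1 p.2 ≤ (q - 1) / 100 + 1 := by
  obtain ⟨h1, h2, h3, h4⟩ := hD p hp
  have hX := (Xt_nonneg h3 h4).2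
  have hα := bAl_bounds hq
  have hα0 : 0 < bAl q := by linarith [hα.1]
  unfold rh2 ell2 lam2 gaF
  have hpow : (-p.1) ^ (2 * (8 / bAl q)) ≤ 1 :=
    Real.rpow_le_one (by linarith) (by linarith) (by positivity)
  have hq' : 0 ≤ (q - 1) / 100 := by linarith
  have := mul_le_mul_of_nonneg_left hpow hq'
  linarith

theorem Th_le_dom (hD : DomOK D) {p : ℝ × ℝ} (hp : p ∈ D) : Th p.1 p.2 ≤ 2 := by
  obtain ⟨h1, h2, h3, h4⟩ := hD p hp
  have hX := (Xt_nonneg h3 h4).2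
  unfold Th
  linarith

theorem ap_yfun_zero (hq : 100 ≤ q) (hD : DomOK D) {φ : ℝ → ℝ} (hφ : ContDiff ℝ ∞ φ) (n : ℕ) :
    TY q D 0 n (fun _ => 1) (fun p => φ p.2) := by
  intro i hi j _
  obtain rfl : i = 0 := Nat.le_zero.1 hi
  have hc : Continuous (iteratedDeriv j φ) :=
    hφ.continuous_iteratedDeriv j (by exact_mod_cast le_top)
  obtain ⟨M, hM⟩ := (isCompact_Icc (a := (-1 : ℝ)) (b := 1)).exists_bound_of_continuousOn
    hc.continuousOn
  have hM0 : 0 ≤ M := (norm_nonneg _).trans (hM 0 ⟨by norm_num, by norm_num⟩)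
  have hK : 0 < (q - 1) / 100 + 1 := by linarith
  refine ⟨M * ((q - 1) / 100 + 1) ^ j, by positivity, fun p hp => ?_⟩
  obtain ⟨h1, h2, h3, h4⟩ := hD p hp
  have hR := rh2_pos_dom (by linarith : 1 < q) hD hp
  have hRK := rh2_le_dom hq hD hp
  have e : dY^[j] (dT^[0] fun p : ℝ × ℝ => φ p.2) p = iteratedDeriv j φ p.2 :=
    (iteratedDeriv_sl j (fun p : ℝ × ℝ => φ p.2) p.1 p.2).symm
  rw [e]
  have h5 := hM p.2 ⟨h3, h4⟩
  rw [Real.norm_eq_abs] at h5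
  simp only [pow_zero, one_mul]
  have h6 : 1 ≤ ((q - 1) / 100 + 1) ^ j * (1 / rh2 q p.1 p.2 ^ j) := by
    rw [mul_one_div, one_le_div (by positivity)]
    exact pow_le_pow_left₀ hR.le hRK j
  calc |iteratedDeriv j φ p.2| ≤ M := h5
    _ = M * 1 := (mul_one M).symm
    _ ≤ M * (((q - 1) / 100 + 1) ^ j * (1 / rh2 q p.1 p.2 ^ j)) :=
        mul_le_mul_of_nonneg_left h6 hM0
    _ = _ := by ring

theorem TY.yfun (hq : 100 ≤ q) (hD : DomOK D) {φ : ℝ → ℝ} (hφ : ContDiff ℝ ∞ φ) :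
    TY q D m n (fun _ => 1) (fun p => φ p.2) := by
  cases m with
  | zero => exact ap_yfun_zero hq hD hφ n
  | succ m =>
    refine TY_succ_iff.2 ⟨ap_yfun_zero hq hD hφ n, TY.of_ev_zero fun p _ => ?_⟩
    have e : Core.dT (fun p : ℝ × ℝ => φ p.2) = fun _ => 0 := funext fun p => dT_of_y φ p
    rw [e]

theorem TS.yfun (hq : 100 ≤ q) (hD : DomOK D) {φ : ℝ → ℝ} (hφ : ContDiff ℝ ∞ φ) :
    TS q D m n (fun _ => 1) (fun p => φ p.2) :=
  ⟨sm_of_y hφ, TY.yfun hq hD hφ⟩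

end

end Claimed.Agent.R324.Core
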