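/-
Row 324 (S0582), PDE core, module AP (architect helper263), SYMBOL CALCULUS, file Strip: congruence on CLOSED strips  Strip a b = (-∞,0) × [a,b].
Purpose: identities which come from Bohm's ODE hold only for Ξ ≥ 0, i.e. |y| ≤ 1;  cut-offs are constant only on closed intervals.   Two smooth functions which agree on a closed strip have the same derivatives of all orders there.

* `strip_dY`:  p = (t,y), t < 0, y ∈ [a,b], a < b.   The slices φ = f(t,·), ψ = g(t,·) are differentiable at y (`Sm.hasDerivAt_y`) and agree on Icc a b;   `UniqueDiffWithinAt ℝ (Icc a b) y` (`uniqueDiffOn_Icc hab y hy`);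
      φ' (y) = derivWithin φ (Icc a b) y = derivWithin ψ (Icc a b) y = ψ'(y)   (`HasDerivAt.hasDerivWithinAt`, `HasDerivWithinAt.derivWithin`/`UniqueDiffWithinAt.eq_deriv`, `derivWithin_congr`).
* `strip_dT`:  the functions s ↦ f(s,y), s ↦ g(s,y) agree for all s < 0: `dT_congr`.
* `strip_iter`: first induction on i (`Function.iterate_succ_apply'`, `Sm.dT_iter`), then on j (`Sm.dY_iter`).
* `TY.congr_strip`: `strip_iter` + `Bd.congr`.
* `strip_of_open`: for fixed t < 0 the slices are continuous (`Sm.sl`), they agree on Ioo a b, whose closure is Icc a b (`closure_Ioo`): `Set.EqOn.closure`/`Continuous.ext_on`-type argument (`Set.EqOn.of_subset_closure`).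
-/
import Claimed.Agent.R324.Core.AP.Cal.Cls

set_option autoImplicit false

namespace Claimed.Agent.R324.Core

open Set Filter Topology
open scoped ContDiff

noncomputable section

/-- closed strips. -/
def Strip (a b : ℝ) : Set (ℝ × ℝ) := Iio (0 : ℝ) ×ˢ Icc a b

theorem core_ap_strip_hygiene : True := by
  have := @Strip.eq_1
  trivial

variable {q a b : ℝ} {D : Set (ℝ × ℝ)} {m n : ℕ} {ϱ f g : Fn}

theorem strip_dY (hab : a < b) (hf : Sm f) (hg : Sm g) (h : ∀ p ∈ Strip a b, f p = g p) :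
    ∀ p ∈ Strip a b, dY f p = dY g p := by
  rintro ⟨t, y⟩ ⟨ht, hy⟩
  have ht' : t < 0 := ht
  have hy' : y ∈ Icc a b := hy
  have hu : UniqueDiffWithinAt ℝ (Icc a b) y := uniqueDiffOn_Icc hab y hy'
  have h1 := ((hf.hasDerivAt_y ht' y).hasDerivWithinAt (s := Icc a b)).derivWithin hu
  have h2 := ((hg.hasDerivAt_y ht' y).hasDerivWithinAt (s := Icc a b)).derivWithin hu
  have h3 : derivWithin (fun z => f (t, z)) (Icc a b) y = derivWithin (fun z => g (t, z)) (Icc a b) y :=
    derivWithin_congr (fun z hz => h (t, z) ⟨ht, hz⟩) (h (t, y) ⟨ht, hy⟩)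
  rw [← h1, ← h2, h3]

theorem strip_dT (h : ∀ p ∈ Strip a b, f p = g p) : ∀ p ∈ Strip a b, dT f p = dT g p := by
  rintro ⟨t, y⟩ ⟨ht, hy⟩
  exact dT_congr (fun s hs => h (s, y) ⟨hs, hy⟩) ht

theorem strip_iter (hab : a < b) (hf : Sm f) (hg : Sm g) (h : ∀ p ∈ Strip a b, f p = g p) (i j : ℕ) :
    ∀ p ∈ Strip a b, dY^[j] (dT^[i] f) p = dY^[j] (dT^[i] g) p := by
  have h1 : ∀ i : ℕ, ∀ p ∈ Strip a b, dT^[i] f p = dT^[i] g p := by
    intro i
    induction i with
    | zero => exact h
    | succ i ih =>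
      rw [Function.iterate_succ_apply', Function.iterate_succ_apply']
      exact strip_dT ih
  induction j with
  | zero => exact h1 i
  | succ j ih =>
    rw [Function.iterate_succ_apply', Function.iterate_succ_apply']
    exact strip_dY hab ((hf.dT_iter i).dY_iter j) ((hg.dT_iter i).dY_iter j) ih

theorem TY.congr_strip (hab : a < b) (hDs : D ⊆ Strip a b) (hf : Sm f) (hg : Sm g)
    (h : ∀ p ∈ Strip a b, f p = g p) (hgy : TY q D m n ϱ g) : TY q D m n ϱ f := by
  intro i hi j hj
  exact Bd.congr (fun p hp => strip_iter hab hf hg h i j p (hDs hp)) (hgy i hi j hj)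

theorem TS.congr_strip (hab : a < b) (hDs : D ⊆ Strip a b) (hf : Sm f)
    (h : ∀ p ∈ Strip a b, f p = g p) (hg : TS q D m n ϱ g) : TS q D m n ϱ f :=
  ⟨hf, hg.bd.congr_strip hab hDs hf hg.sm h⟩

theorem strip_of_open (hab : a < b) (hf : Sm f) (hg : Sm g)
    (h : ∀ t < 0, ∀ y ∈ Ioo a b, f (t, y) = g (t, y)) : ∀ p ∈ Strip a b, f p = g p := by
  rintro ⟨t, y⟩ ⟨ht, hy⟩
  have ht' : t < 0 := ht
  have hy' : y ∈ Icc a b := hy
  have hc1 : Continuous (sl f t) := (hf.sl ht').continuous
  have hc2 : Continuous (sl g t) := (hg.sl ht').continuous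
  have he : EqOn (sl f t) (sl g t) (Ioo a b) := fun z hz => h t ht' z hz
  have he2 := he.closure hc1 hc2
  rw [closure_Ioo hab.ne] at he2
  exact he2 hy'

end

end Claimed.Agent.R324.Core
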