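/-
Row 324 (S0582), PDE core, module AP (architect helper263), SYMBOL CALCULUS, file WtB (JJ_le, wt_le): the family of weights
      wt q a b c = (r̂^{-α})^a Θ^b (r̂²)^c,      a : ℕ,  b c : ℤ,       R := r̂² = rh2 q t y,  Θ = Th t y,  α = alF q = bAl q,  r̂^{-α} = R^(-α/2) (Real.rpow).
      𝔍 = JJ = wt 1 8 0,    1 = wt 0 0 0,    1/R = wt 0 0 (-1),    1/Θ = wt 0 (-1) 0.
On an admissible domain (`DomOK D`: -1 ≤ t < 0, |y| ≤ 1), q ≥ 100:    0 < R ≤ K,  0 < Θ ≤ 2  (Cal/ClsA, CompC: `rh2_pos_dom, Th_pos_dom, rh2_le_dom, Th_le_dom`).    Λ = -t, γ = gaF q = 8/α, 2 < α < 3 (`bAl_bounds`), ℓ² = ell2 = (q-1)/100 Λ^(2γ).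

* `wt_pos`: positivity (`Real.rpow_pos_of_pos`, `zpow_pos`, `pow_pos`).
* `wt_mul`: `pow_add`, `zpow_add₀` (R, Θ ≠ 0), ring.      `wt_div_Th`, `wt_div_rh2`: `zpow_sub_one₀`.     `wt_zero`: simp.     `wt_JJ`: unfold JJ wt; `zpow_natCast`/`zpow_ofNat`, `pow_one`, `zpow_zero`; ring.
* `rh2_le_Th`:  ℓ² = c Λ^(2γ) ≤ c Λ  (c = (q-1)/100;  Λ ≤ 1 and 2γ ≥ 1: `Real.rpow_le_rpow_of_exponent_ge` with Λ^1),   so R = ℓ² + X̃ ≤ max(c,1)(Λ + X̃);   take K = (q-1)/100 + 1.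
* `JJ_le`:   Θ^8 R^(-α/2) ≤ K.    Case X̃ ≥ Λ:  Θ ≤ 2X̃, R ≥ X̃ > 0 ⟹ R^(-α/2) ≤ X̃^(-α/2) (`Real.rpow_le_rpow_of_nonpos`), Θ^8 R^(-α/2) ≤ 2^8 X̃^(8-α/2) ≤ 2^8 (X̃ ≤ 1, 8-α/2 ≥ 0; X̃^8 = X̃^(8:ℝ): `Real.rpow_natCast`, `Real.rpow_add`).
             Case X̃ < Λ:  Θ ≤ 2Λ, R ≥ ℓ² = c Λ^(2γ) ⟹ R^(-α/2) ≤ c^(-α/2) Λ^(-γα) = c^(-α/2) Λ^(-8)  (`Real.mul_rpow`, `Real.rpow_mul`; 2γ * (-α/2) = -8), so Θ^8 R^(-α/2) ≤ 2^8 c^(-α/2).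
* `wt_le`:  with da = a'-a ≥ 0, dc = c'-c ≥ 0, e = (b'-b) - 8 da + dc ≥ 0:     wt a' b' c' = wt a b c * (R^(-α/2) Θ^8)^da * (R/Θ)^dc * Θ^e   ≤ wt a b c * K₁^da * K₂^dc * 2^e.
      (write a' = a + da (ℕ), c' = c + dc with dc = (k : ℕ), e = (l : ℕ): `Int.toNat`/`Int.eq_ofNat_of_zero_le`; then everything is `pow`.)
* `TS.le_wt`, `TS.mul_wt`, `TS.dT_wt`, `TS.dY_wt`, `TS.one_wt`: `TS.mono_wt`/`TS.congr_wt` with the lemmas above.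
* `TS.Lam`:  f = -t.   Sm: `sm_fst.neg`.   dT f = -1 (constant function on t<0… as functions: dT (fun p => -p.1) = fun _ => -1 by funext/`deriv_neg`), dY f = 0.   Use `TY_succ_iff`, `TY_zero_succ_iff`:  Bd: Λ ≤ Θ = wt 0 1 0 (X̃ ≥ 0);   dY-part: zero function (`TY.of_ev_zero`);   dT-part: the constant -1 ∈ TY m n 1 (`TY.const`), weight (wt 0 1 0)/Θ = 1 on D.
* `TS.X_Th`, `TS.X_rh`:  f = X = 1 - y²: a function of y, so dT f = 0 (`dT_of_y`);  dY f = -2y, dY² f = -2, then 0.    |X| ≤ (4/3) X̃ ≤ (4/3) min(Θ, R) on D  (y ≥ 1/2: X = X̃ (`Xt_eq`); y ≤ 1/2: X ≤ 1 ≤ (4/3) X̃ (`Xt_mem`); X ≥ 0).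
      dY f = -2y ∈ TY 0 n 1 (`TY.yfun`) and 1 ≤ K (wt 0 1 0)/R resp. 1 = (wt 0 0 1)/R  (`rh2_le_Th`); `TY.mono_wt`.
-/
import Claimed.Agent.R324.Core.AP.Cal.WtA

set_option autoImplicit false

namespace Claimed.Agent.R324.Core

open Set Filter Topology
open scoped ContDiff

noncomputable section

variable {q : ℝ} {D : Set (ℝ × ℝ)} {m n : ℕ} {f g : Fn} {a a' : ℕ} {b b' c c' : ℤ} {p : ℝ × ℝ}

theorem JJ_le (hq : 100 ≤ q) : ∃ K : ℝ, 0 ≤ K ∧ ∀ D : Set (ℝ × ℝ), DomOK D → ∀ p ∈ D, JJ q p.1 p.2 ≤ K := by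
  have hα := bAl_bounds hq
  have hα0 : 0 < bAl q := by linarith [hα.1]
  have hc : 0 < (q - 1) / 100 := by
    have : 0 < q - 1 := by linarith
    positivity
  set cc : ℝ := (q - 1) / 100 with hcc
  have hcp : 0 < cc ^ (-(bAl q) / 2) := Real.rpow_pos_of_pos hc _
  refine ⟨2 ^ 8 + 2 ^ 8 * cc ^ (-(bAl q) / 2), by positivity, fun D hD p hp => ?_⟩
  obtain ⟨h1, h2, h3, h4⟩ := hD p hp
  obtain ⟨hX0, hX1⟩ := Xt_nonneg h3 h4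
  have hR := rh2_pos_dom (by linarith : (1 : ℝ) < q) hD hp
  have hΘ := Th_pos_dom hD hp
  unfold JJ alF
  set X := Xt p.2 with hX
  set Λ := -p.1 with hΛ
  have hΛ0 : 0 < Λ := by rw [hΛ]; linarith
  have hΛ1 : Λ ≤ 1 := by rw [hΛ]; linarith
  have hΘe : Th p.1 p.2 = Λ + X := rfl
  have hRe : rh2 q p.1 p.2 = cc * Λ ^ (2 * gaF q) + X := rfl
  have hΛp : 0 < Λ ^ (2 * gaF q) := Real.rpow_pos_of_pos hΛ0 _
  have hexp : -(bAl q) / 2 ≤ 0 := by linarith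
  rcases le_total Λ X with hcase | hcase
  · have hXpos : 0 < X := lt_of_lt_of_le hΛ0 hcase
    have e1 : rh2 q p.1 p.2 ^ (-(bAl q) / 2) ≤ X ^ (-(bAl q) / 2) := by
      apply Real.rpow_le_rpow_of_nonpos hXpos _ hexp
      rw [hRe]
      have := mul_pos hc hΛp
      linarith
    have e2 : Th p.1 p.2 ^ 8 ≤ (2 * X) ^ 8 := by
      apply pow_le_pow_left₀ hΘ.le
      rw [hΘe]; linarith
    have e3 : X ^ 8 * X ^ (-(bAl q) / 2) ≤ 1 := by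
      rw [← Real.rpow_natCast X 8, ← Real.rpow_add hXpos]
      apply Real.rpow_le_one hX0 hX1
      push_cast
      linarith
    calc Th p.1 p.2 ^ 8 * rh2 q p.1 p.2 ^ (-(bAl q) / 2)
        ≤ (2 * X) ^ 8 * X ^ (-(bAl q) / 2) :=
          mul_le_mul e2 e1 (Real.rpow_nonneg hR.le _) (by positivity)
      _ = 2 ^ 8 * (X ^ 8 * X ^ (-(bAl q) / 2)) := by ring
      _ ≤ 2 ^ 8 * 1 := by gcongr
      _ ≤ 2 ^ 8 + 2 ^ 8 * cc ^ (-(bAl q) / 2) := by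
          have : 0 ≤ (2 : ℝ) ^ 8 * cc ^ (-(bAl q) / 2) := by positivity
          linarith
  · have e1 : rh2 q p.1 p.2 ^ (-(bAl q) / 2) ≤ (cc * Λ ^ (2 * gaF q)) ^ (-(bAl q) / 2) := by
      apply Real.rpow_le_rpow_of_nonpos (mul_pos hc hΛp) _ hexp
      rw [hRe]
      linarith
    have e1' : (cc * Λ ^ (2 * gaF q)) ^ (-(bAl q) / 2) = cc ^ (-(bAl q) / 2) * Λ ^ (-(8 : ℝ)) := by
      rw [Real.mul_rpow hc.le hΛp.le, ← Real.rpow_mul hΛ0.le]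
      congr 2
      unfold gaF
      field_simp
    have e2 : Th p.1 p.2 ^ 8 ≤ (2 * Λ) ^ 8 := by
      apply pow_le_pow_left₀ hΘ.le
      rw [hΘe]; linarith
    have e3 : Λ ^ 8 * Λ ^ (-(8 : ℝ)) = 1 := by
      rw [← Real.rpow_natCast Λ 8, ← Real.rpow_add hΛ0]
      norm_num
    calc Th p.1 p.2 ^ 8 * rh2 q p.1 p.2 ^ (-(bAl q) / 2)
        ≤ (2 * Λ) ^ 8 * (cc ^ (-(bAl q) / 2) * Λ ^ (-(8 : ℝ))) := by
          rw [← e1']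
          exact mul_le_mul e2 e1 (Real.rpow_nonneg hR.le _) (by positivity)
      _ = 2 ^ 8 * cc ^ (-(bAl q) / 2) * (Λ ^ 8 * Λ ^ (-(8 : ℝ))) := by ring
      _ = 2 ^ 8 * cc ^ (-(bAl q) / 2) := by rw [e3, mul_one]
      _ ≤ 2 ^ 8 + 2 ^ 8 * cc ^ (-(bAl q) / 2) := by
          have : (0 : ℝ) ≤ 2 ^ 8 := by positivity
          linarith

theorem wt_le (hq : 100 ≤ q) (ha : a ≤ a') (hc : c ≤ c')
    (h : 8 * ((a' : ℤ) - a) ≤ (b' - b) + (c' - c)) :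
    ∃ K : ℝ, 0 ≤ K ∧ ∀ D : Set (ℝ × ℝ), DomOK D → ∀ p ∈ D, wt q a' b' c' p ≤ K * wt q a b c p := by
  obtain ⟨K1, hK1, hJ⟩ := JJ_le hq
  obtain ⟨da, rfl⟩ := Nat.exists_eq_add_of_le ha
  obtain ⟨dc, hdc⟩ := Int.eq_ofNat_of_zero_le (sub_nonneg.2 hc)
  obtain ⟨e, he⟩ := Int.eq_ofNat_of_zero_le (sub_nonneg.2 h)
  have hc' : c' = c + dc := by omega
  have hb' : b' = b + ((8 * da : ℕ) : ℤ) - (dc : ℤ) + (e : ℤ) := by
    push_cast at he ⊢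
    omega
  subst hc' hb'
  have hK2 : (0 : ℝ) ≤ (q - 1) / 100 + 1 := by
    have : 0 ≤ q - 1 := by linarith
    positivity
  refine ⟨K1 ^ da * ((q - 1) / 100 + 1) ^ dc * 2 ^ e, by positivity, fun D hD p hp => ?_⟩
  have hR := rh2_pos_dom (by linarith : (1 : ℝ) < q) hD hp
  have hΘ := Th_pos_dom hD hp
  have hΘ2 := Th_le_dom hD hp
  have hRΘ := rh2_le_Th hq hD hp
  have hJJ := hJ D hD p hp
  have hw0 := (wt_pos (a := a) (b := b) (c := c) hq hD hp).le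
  unfold JJ at hJJ
  unfold wt at hw0 ⊢
  set R := rh2 q p.1 p.2 with hRdef
  set Θ := Th p.1 p.2 with hΘdef
  set W := R ^ (-(alF q) / 2) with hW
  have hWpos : 0 < W := Real.rpow_pos_of_pos hR _
  have key : W ^ (a + da) * Θ ^ (b + ((8 * da : ℕ) : ℤ) - (dc : ℤ) + (e : ℤ)) * R ^ (c + (dc : ℤ))
      = ((Θ ^ 8 * W) ^ da * (R / Θ) ^ dc * Θ ^ e) * (W ^ a * Θ ^ b * R ^ c) := by
    rw [zpow_add₀ hΘ.ne', zpow_sub₀ hΘ.ne', zpow_add₀ hΘ.ne', zpow_add₀ hR.ne', zpow_natCast,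
      zpow_natCast, zpow_natCast, zpow_natCast, pow_add, mul_pow, div_pow, ← pow_mul]
    field_simp
  rw [key]
  apply mul_le_mul_of_nonneg_right _ hw0
  have b1 : (Θ ^ 8 * W) ^ da ≤ K1 ^ da := pow_le_pow_left₀ (by positivity) hJJ _
  have b2 : (R / Θ) ^ dc ≤ ((q - 1) / 100 + 1) ^ dc := by
    apply pow_le_pow_left₀ (by positivity)
    rw [div_le_iff₀ hΘ]
    exact hRΘ
  have b3 : Θ ^ e ≤ 2 ^ e := pow_le_pow_left₀ hΘ.le hΘ2 _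
  exact mul_le_mul (mul_le_mul b1 b2 (by positivity) (by positivity)) b3 (by positivity) (by positivity)

end

end Claimed.Agent.R324.Core
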