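/-
Row 324 (S0582), PDE core, module AP (architect helper263), SYMBOL CALCULUS, file WtC (TS.le_wt … TS.one_wt): the family of weights
      wt q a b c = (r̂^{-α})^a Θ^b (r̂²)^c,      a : ℕ,  b c : ℤ,       R := r̂² = rh2 q t y,  Θ = Th t y,  α = alF q = bAl q,  r̂^{-α} = R^(-α/2) (Real.rpow).
      𝔍 = JJ = wt 1 8 0,    1 = wt 0 0 0,    1/R = wt 0 0 (-1),    1/Θ = wt 0 (-1) 0.
On an admissible domain (`DomOK D`: -1 ≤ t < 0, |y| ≤ 1), q ≥ 100:    0 < R ≤ K,  0 < Θ ≤ 2  (Cal/ClsA, CompC: `rh2_pos_dom, Th_pos_dom, rh2_le_dom, Th_le_dom`).    Λ = -t, γ = gaF q = 8/α, 2 < α < 3 (`bAl_bounds`), ℓ² = ell2 = (q-1)/100 Λ^(2γ).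

* `wt_pos`: positivity (`Real.rpow_pos_of_pos`, `zpow_pos`, `pow_pos`).
* `wt_mul`: `pow_add`, `zpow_add₀` (R, Θ ≠ 0), ring.      `wt_div_Th`, `wt_div_rh2`: `zpow_sub_one₀`.     `wt_zero`: simp.     `wt_JJ`: unfold JJ wt; `zpow_natCast`/`zpow_ofNat`, `pow_one`, `zpow_zero`; ring.
* `rh2_le_Th`:  ℓ² = c Λ^(2γ) ≤ c Λ  (c = (q-1)/100;  Λ ≤ 1 and 2γ ≥ 1: `Real.rpow_le_rpow_of_exponent_ge` with Λ^1),   so R = ℓ² + X̃ ≤ max(c,1)(Λ + X̃);   take K = (q-1)/100 + 1.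
* `JJ_le`:   Θ^8 R^(-α/2) ≤ K.    Case X̃ ≥ Λ:  Θ ≤ 2X̃, R ≥ X̃ > 0 ⟹ R^(-α/2) ≤ X̃^(-α/2) (`Real.rpow_le_rpow_of_nonpos`), Θ^8 R^(-α/2) ≤ 2^8 X̃^(8-α/2) ≤ 2^8 (X̃ ≤ 1, 8-α/2 ≥ 0; X̃^8 = X̃^(8:ℝ): `Real.rpow_natCast`, `Real.rpow_add`).
             Case X̃ < Λ:  Θ ≤ 2Λ, R ≥ ℓ² = c Λ^(2γ) ⟹ R^(-α/2) ≤ c^(-α/2) Λ^(-γα) = c^(-α/2) Λ^(-8)  (`Real.mul_rpow`, `Real.rpow_mul`; 2γ * (-α/2) = -8), so Θ^8 R^(-α/2) ≤ 2^8 c^(-α/2).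
* `wt_le`:  with da = a'-a ≥ 0, dc = c'-c ≥ 0, e = (b'-b) - 8 da + dc ≥ 0:     wt a' b' c' = wt a b c * (R^(-α/2) Θ^8)^da * (R/Θ)^dc * Θ^e   ≤ wt a b c * K₁^da * K₂^dc * 2^e.
      (write a' = a + da (ℕ), c' = c + dc with dc = (k : ℕ), e = (l : ℕ): `Int.toNat`/`Int.eq_ofNat_of_zero_le`; then everything is `pow`.)
* `TS.le_wt`, `TS.mul_wt`, `TS.dT_wt`, `TS.dY_wt`, `TS.one_wt`: `TS.mono_wt`/`TS.congr_wt` with the lemmas above.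
* `TS.Lam`:  f = -t.   Sm: `sm_fst.neg`.   dT f = -1 (constant function on t<0… as functions: dT (fun p => -p.1) = fun _ => -1 by funext/`deriv_neg`), dY f = 0.   Use `TY_succ_iff`, `TY_zero_succ_iff`:  Bd: Λ ≤ Θ = wt 0 1 0 (X̃ ≥ 0);   dY-part: zero function (`TY.of_ev_zero`);   dT-part: the constant -1 ∈ TY m n 1 (`TY.const`), weight (wt 0 1 0)/Θ = 1 on D.
* `TS.X_Th`, `TS.X_rh`:  f = X = 1 - y²: a function of y, so dT f = 0 (`dT_of_y`);  dY f = -2y, dY² f = -2, then 0.    |X| ≤ (4/3) X̃ ≤ (4/3) min(Θ, R) on D  (y ≥ 1/2: X = X̃ (`Xt_eq`); y ≤ 1/2: X ≤ 1 ≤ (4/3) X̃ (`Xt_mem`); X ≥ 0).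
      dY f = -2y ∈ TY 0 n 1 (`TY.yfun`) and 1 ≤ K (wt 0 1 0)/R resp. 1 = (wt 0 0 1)/R  (`rh2_le_Th`); `TY.mono_wt`.
NOTE: inside a theorem named `TS.foo` the identifiers dT, dY resolve to `TS.dT`, `TS.dY`: write `Core.dT`, `Core.dY`.
-/
import Claimed.Agent.R324.Core.AP.Cal.WtB

set_option autoImplicit false

namespace Claimed.Agent.R324.Core

open Set Filter Topology
open scoped ContDiff

noncomputable section

variable {q : ℝ} {D : Set (ℝ × ℝ)} {m n : ℕ} {f g : Fn} {a a' : ℕ} {b b' c c' : ℤ} {p : ℝ × ℝ}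

theorem TS.le_wt (hq : 100 ≤ q) (hD : DomOK D) (ha : a ≤ a') (hc : c ≤ c')
    (h : 8 * ((a' : ℤ) - a) ≤ (b' - b) + (c' - c)) (hf : TS q D m n (wt q a' b' c') f) :
    TS q D m n (wt q a b c) f := by
  obtain ⟨K, hK, hle⟩ := wt_le (q := q) (a := a) (a' := a') (b := b) (b' := b') (c := c) (c' := c')
    hq ha hc h
  exact TS.mono_wt (by linarith) hD hK (hle D hD) hf

theorem TS.mul_wt (hq : 100 ≤ q) (hD : DomOK D) (hf : TS q D m n (wt q a b c) f)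
    (hg : TS q D m n (wt q a' b' c') g) :
    TS q D m n (wt q (a + a') (b + b') (c + c')) (fun p => f p * g p) :=
  TS.congr_wt (fun _ hp => wt_mul hq hD hp) (TS.mul hD hf hg)

theorem TS.dT_wt (hq : 100 ≤ q) (hD : DomOK D) (hf : TS q D (m + 1) n (wt q a b c) f) :
    TS q D m n (wt q a (b - 1) c) (Core.dT f) :=
  TS.congr_wt (fun _ hp => wt_div_Th hq hD hp) (TS.dT hf)

theorem TS.dY_wt (hq : 100 ≤ q) (hD : DomOK D) (hf : TS q D m (n + 1) (wt q a b c) f) :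
    TS q D m n (wt q a b (c - 1)) (Core.dY f) :=
  TS.congr_wt (fun _ hp => wt_div_rh2 hq hD hp) (TS.dY hD hf)

theorem TS.one_wt : TS q D m n (fun _ => 1) f ↔ TS q D m n (wt q 0 0 0) f :=
  ⟨TS.congr_wt (fun p _ => (wt_zero p).symm), TS.congr_wt (fun p _ => wt_zero p)⟩

end

end Claimed.Agent.R324.Core
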