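/-
Row 324 (S0582), PDE core, module AP (architect helper263), SYMBOL CALCULUS, file WtD (TS.Lam, TS.X_Th, TS.X_rh): the family of weights
      wt q a b c = (r̂^{-α})^a Θ^b (r̂²)^c,      a : ℕ,  b c : ℤ,       R := r̂² = rh2 q t y,  Θ = Th t y,  α = alF q = bAl q,  r̂^{-α} = R^(-α/2) (Real.rpow).
      𝔍 = JJ = wt 1 8 0,    1 = wt 0 0 0,    1/R = wt 0 0 (-1),    1/Θ = wt 0 (-1) 0.
On an admissible domain (`DomOK D`: -1 ≤ t < 0, |y| ≤ 1), q ≥ 100:    0 < R ≤ K,  0 < Θ ≤ 2  (Cal/ClsA, CompC: `rh2_pos_dom, Th_pos_dom, rh2_le_dom, Th_le_dom`).    Λ = -t, γ = gaF q = 8/α, 2 < α < 3 (`bAl_bounds`), ℓ² = ell2 = (q-1)/100 Λ^(2γ).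

* `wt_pos`: positivity (`Real.rpow_pos_of_pos`, `zpow_pos`, `pow_pos`).
* `wt_mul`: `pow_add`, `zpow_add₀` (R, Θ ≠ 0), ring.      `wt_div_Th`, `wt_div_rh2`: `zpow_sub_one₀`.     `wt_zero`: simp.     `wt_JJ`: unfold JJ wt; `zpow_natCast`/`zpow_ofNat`, `pow_one`, `zpow_zero`; ring.
* `rh2_le_Th`:  ℓ² = c Λ^(2γ) ≤ c Λ  (c = (q-1)/100;  Λ ≤ 1 and 2γ ≥ 1: `Real.rpow_le_rpow_of_exponent_ge` with Λ^1),   so R = ℓ² + X̃ ≤ max(c,1)(Λ + X̃);   take K = (q-1)/100 + 1.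
* `JJ_le`:   Θ^8 R^(-α/2) ≤ K.    Case X̃ ≥ Λ:  Θ ≤ 2X̃, R ≥ X̃ > 0 ⟹ R^(-α/2) ≤ X̃^(-α/2) (`Real.rpow_le_rpow_of_nonpos`), Θ^8 R^(-α/2) ≤ 2^8 X̃^(8-α/2) ≤ 2^8 (X̃ ≤ 1, 8-α/2 ≥ 0; X̃^8 = X̃^(8:ℝ): `Real.rpow_natCast`, `Real.rpow_add`).
             Case X̃ < Λ:  Θ ≤ 2Λ, R ≥ ℓ² = c Λ^(2γ) ⟹ R^(-α/2) ≤ c^(-α/2) Λ^(-γα) = c^(-α/2) Λ^(-8)  (`Real.mul_rpow`, `Real.rpow_mul`; 2γ * (-α/2) = -8), so Θ^8 R^(-α/2) ≤ 2^8 c^(-α/2).
* `wt_le`:  with da = a'-a ≥ 0, dc = c'-c ≥ 0, e = (b'-b) - 8 da + dc ≥ 0:     wt a' b' c' = wt a b c * (R^(-α/2) Θ^8)^da * (R/Θ)^dc * Θ^e   ≤ wt a b c * K₁^da * K₂^dc * 2^e.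
      (write a' = a + da (ℕ), c' = c + dc with dc = (k : ℕ), e = (l : ℕ): `Int.toNat`/`Int.eq_ofNat_of_zero_le`; then everything is `pow`.)
* `TS.le_wt`, `TS.mul_wt`, `TS.dT_wt`, `TS.dY_wt`, `TS.one_wt`: `TS.mono_wt`/`TS.congr_wt` with the lemmas above.
* `TS.Lam`:  f = -t.   Sm: `sm_fst.neg`.   dT f = -1 (constant function on t<0… as functions: dT (fun p => -p.1) = fun _ => -1 by funext/`deriv_neg`), dY f = 0.   Use `TY_succ_iff`, `TY_zero_succ_iff`:  Bd: Λ ≤ Θ = wt 0 1 0 (X̃ ≥ 0);   dY-part: zero function (`TY.of_ev_zero`);   dT-part: the constant -1 ∈ TY m n 1 (`TY.const`), weight (wt 0 1 0)/Θ = 1 on D.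
* `TS.X_Th`, `TS.X_rh`:  f = X = 1 - y²: a function of y, so dT f = 0 (`dT_of_y`);  dY f = -2y, dY² f = -2, then 0.    |X| ≤ (4/3) X̃ ≤ (4/3) min(Θ, R) on D  (y ≥ 1/2: X = X̃ (`Xt_eq`); y ≤ 1/2: X ≤ 1 ≤ (4/3) X̃ (`Xt_mem`); X ≥ 0).
      dY f = -2y ∈ TY 0 n 1 (`TY.yfun`) and 1 ≤ K (wt 0 1 0)/R resp. 1 = (wt 0 0 1)/R  (`rh2_le_Th`); `TY.mono_wt`.
NOTE: inside a theorem named `TS.foo` the identifiers dT, dY resolve to `TS.dT`, `TS.dY`: write `Core.dT`, `Core.dY`.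
-/
import Claimed.Agent.R324.Core.AP.Cal.WtB

set_option autoImplicit false

namespace Claimed.Agent.R324.Core

open Set Filter Topology
open scoped ContDiff

noncomputable section

variable {q : ℝ} {D : Set (ℝ × ℝ)} {m n : ℕ} {f g : Fn} {a a' : ℕ} {b b' c c' : ℤ} {p : ℝ × ℝ}

theorem ap_wt_010 (p : ℝ × ℝ) : wt q 0 1 0 p = Th p.1 p.2 := by
  simp [wt]

theorem ap_wt_001 (p : ℝ × ℝ) : wt q 0 0 1 p = rh2 q p.1 p.2 := by
  simp [wt]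

theorem ap_Xt_le_rh2 (hq : 100 ≤ q) (hD : DomOK D) (hp : p ∈ D) : Xt p.2 ≤ rh2 q p.1 p.2 := by
  obtain ⟨_, h2, h3, h4⟩ := hD p hp
  have hl : 0 < ell2 q p.1 := by
    unfold ell2 lam2
    have : 0 < (-p.1) ^ (2 * gaF q) := Real.rpow_pos_of_pos (by linarith) _
    have hq' : 0 < (q - 1) / 100 := by linarith
    exact mul_pos hq' this
  unfold rh2
  linarith

theorem ap_Xt_le_Th (hD : DomOK D) (hp : p ∈ D) : Xt p.2 ≤ Th p.1 p.2 := by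
  obtain ⟨_, h2, h3, h4⟩ := hD p hp
  unfold Th
  linarith

theorem ap_abs_Xf_le (hD : DomOK D) (hp : p ∈ D) : |Xf p.2| ≤ 4 / 3 * Xt p.2 := by
  obtain ⟨_, h2, h3, h4⟩ := hD p hp
  have h0 : 0 ≤ Xf p.2 := by
    unfold Xf
    nlinarith
  have h1 : Xf p.2 ≤ 1 := by
    unfold Xf
    nlinarith [sq_nonneg p.2]
  rw [abs_of_nonneg h0]
  rcases le_total p.2 (1 / 2) with h | h
  · have := (Xt_mem h h3).1
    linarith
  · rw [Xt_eq h]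
    linarith

/-- a function `X(y)` bounded by the weight whose `R`-quotient dominates `1`. -/
theorem ap_X_gen (hq : 100 ≤ q) (hD : DomOK D) {ϱ : Fn} {K : ℝ} (hK : 0 ≤ K)
    (hb : ∀ p ∈ D, Xt p.2 ≤ ϱ p) (h1 : ∀ p ∈ D, 1 ≤ K * (ϱ p / rh2 q p.1 p.2)) :
    TY q D m n ϱ (fun p => Xf p.2) := by
  have hB : Bd D ϱ (fun p => Xf p.2) :=
    ⟨4 / 3, by norm_num, fun p hp => (ap_abs_Xf_le hD hp).trans (by linarith [hb p hp])⟩
  have hY : Core.dY (fun p : ℝ × ℝ => Xf p.2) = fun p => (fun y : ℝ => -2 * y) p.2 :=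
    funext fun p => dY_Xf p
  have hT : Core.dT (fun p : ℝ × ℝ => Xf p.2) = fun _ => 0 := funext fun p => dT_of_y Xf p
  have h0 : TY q D 0 n ϱ (fun p => Xf p.2) := by
    cases n with
    | zero => exact TY_zero_zero_iff.2 hB
    | succ n =>
      refine TY_zero_succ_iff.2 ⟨hB, ?_⟩
      rw [hY]
      have hφ : ContDiff ℝ ∞ (fun y : ℝ => -2 * y) := contDiff_const.mul contDiff_id
      exact TY.mono_wt (by linarith) hD hK h1 (TY.yfun hq hD hφ)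
  cases m with
  | zero => exact h0
  | succ m =>
    refine TY_succ_iff.2 ⟨h0, ?_⟩
    rw [hT]
    exact TY.of_ev_zero (fun p _ => Filter.EventuallyEq.rfl)

theorem TS.Lam (hq : 100 ≤ q) (hD : DomOK D) : TS q D m n (wt q 0 1 0) (fun p => -p.1) := by
  refine ⟨sm_fst.neg, ?_⟩
  have hB : Bd D (wt q 0 1 0) (fun p => -p.1) := by
    refine ⟨1, zero_le_one, fun p hp => ?_⟩
    obtain ⟨_, h2, h3, h4⟩ := hD p hp
    have hX := (Xt_nonneg h3 h4).1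
    rw [ap_wt_010, abs_of_nonneg (by linarith)]
    unfold Th
    linarith
  have hY : Core.dY (fun p : ℝ × ℝ => -p.1) = fun _ => 0 :=
    funext fun p => dY_of_t (fun t => -t) p
  have hT : Core.dT (fun p : ℝ × ℝ => -p.1) = fun _ => -1 := by
    funext p
    show deriv (fun s : ℝ => -s) p.1 = -1
    simp
  have h0 : TY q D 0 n (wt q 0 1 0) (fun p => -p.1) := by
    cases n with
    | zero => exact TY_zero_zero_iff.2 hB
    | succ n =>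
      refine TY_zero_succ_iff.2 ⟨hB, ?_⟩
      rw [hY]
      exact TY.of_ev_zero (fun p _ => Filter.EventuallyEq.rfl)
  cases m with
  | zero => exact h0
  | succ m =>
    refine TY_succ_iff.2 ⟨h0, ?_⟩
    rw [hT]
    refine TY.congr_wt (fun p hp => ?_) (TY.const (-1))
    rw [ap_wt_010, div_self (Th_pos_dom hD hp).ne']

theorem TS.X_Th (hq : 100 ≤ q) (hD : DomOK D) : TS q D m n (wt q 0 1 0) (fun p => Xf p.2) := by
  refine ⟨sm_Xf, ap_X_gen hq hD (K := (q - 1) / 100 + 1) (by linarith) (fun p hp => ?_)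
    (fun p hp => ?_)⟩
  · rw [ap_wt_010]
    exact ap_Xt_le_Th hD hp
  · rw [ap_wt_010, ← mul_div_assoc, le_div_iff₀ (rh2_pos_dom (by linarith) hD hp), one_mul]
    exact rh2_le_Th hq hD hp

theorem TS.X_rh (hq : 100 ≤ q) (hD : DomOK D) : TS q D m n (wt q 0 0 1) (fun p => Xf p.2) := by
  refine ⟨sm_Xf, ap_X_gen hq hD (K := 1) zero_le_one (fun p hp => ?_) (fun p hp => ?_)⟩
  · rw [ap_wt_001]
    exact ap_Xt_le_rh2 hq hD hp
  · rw [ap_wt_001, div_self (rh2_pos_dom (by linarith) hD hp).ne', one_mul]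

end

end Claimed.Agent.R324.Core
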